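import Vale.Agent.P297Z.Surf.AllOf

/-! P297, positive irregularity: contraction of exceptional curves. Statements. -/

set_option linter.all false

namespace Vale.Agent.P297Z.Sf

variable {K : Type} [Field K] [Algebra ℂ K]

/-- An exceptional curve of the first kind. -/
def IsExc (S : Surf K) (E : Crv S.W) : Prop :=
  inter (Finsupp.single E 1) (Finsupp.single E 1) = -1 ∧ inter S.kap (Finsupp.single E 1) = -1

/-- `S'` is obtained from `S` by the contraction of the curve `E`. -/
structure Contr (S S' : Surf K) (E : Crv S.W) where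
  /-- the curves -/
  ι : Crv S'.W → Crv S.W
  pl : ∀ C, (ι C).pl = C.pl
  ne : ∀ C, ι C ≠ E
  all : ∀ C, C ≠ E → ∃ C', ι C' = C
  /-- the points -/
  p : Pt S.W → Pt S'.W
  dom : Dominates p
  surj : Function.Surjective p
  inj : ∀ x y, p x = p y → x = y ∨ (x.On E ∧ y.On E)

/-- The criterion of Castelnuovo. -/
def CONTR : Prop := ForAll fun {K} _ _ S => S.All → ∀ E : Crv S.W, IsExc S E →
  ∃ S' : Surf K, Nonempty (Contr S S' E)

end Vale.Agent.P297Z.Sf
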