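import Vale.Agent.P297Z.Surf.Rul

/-! The index theorem of Hodge on all the surfaces. -/

set_option linter.all false

namespace Vale.Agent.P297Z.Sf

variable {K : Type} [Field K] [Algebra ℂ K] {S : Surf K}

namespace Hd

theorem fin (hA : S.All) (X : Div S.W) : FiniteDimensional ℂ (H0 X) := by
  have := (hA.fg X).1 0
  rwa [M, zero_smul, add_zero] at this

/-- Multiplication by a section. -/
theorem h0_le_add (hA : S.All) {X Y : Div S.W} (h : H0 Y ≠ ⊥) : h0 X ≤ h0 (X + Y) := by
  obtain ⟨s, hs, s0⟩ := (Submodule.ne_bot_iff _).1 h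
  have := fin hA (X + Y)
  let φ : H0 X →ₗ[ℂ] H0 (X + Y) :=
    { toFun := fun f => ⟨f * s, mul_mem_secOn f.2 hs⟩
      map_add' := fun f g => Subtype.ext (add_mul _ _ _)
      map_smul' := fun c f => Subtype.ext (smul_mul_assoc _ _ _) }
  have h1 := LinearMap.finrank_le_finrank_of_injective (f := φ) fun f g e =>
    Subtype.ext (mul_right_cancel₀ s0 (congrArg Subtype.val e))
  unfold h0
  exact_mod_cast h1

theorem ne_bot_of_pos {X : Div S.W} (h : 0 < h0 X) : H0 X ≠ ⊥ := fun e => by
  rw [h0_bot e] at h
  exact lt_irrefl _ h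

theorem nef_H (hA : S.All) (C : Crv S.W) : 0 ≤ inter S.H (Finsupp.single C 1) := (hA.crv C).le

/-- An effective divisor of degree zero is zero. -/
theorem eq_zero_of_deg (hA : S.All) {Z : Div S.W} (hZ : 0 ≤ Z) (h : inter S.H Z = 0) : Z = 0 := by
  ext C
  by_contra hc
  exact (Rul.H_pos hA hZ hc).ne' h

theorem inter_zero (hA : S.All) (X : Div S.W) : inter X 0 = 0 := by
  rw [← interHom_apply hA.toRR, map_zero]

/-- A divisor of degree zero with a section is numerically trivial. -/
theorem num_zero (hA : S.All) {X : Div S.W} (h : H0 X ≠ ⊥) (h0 : inter S.H X = 0) (Y : Div S.W) :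
    inter X Y = 0 := by
  obtain ⟨s, hs, s0⟩ := (Submodule.ne_bot_iff _).1 h
  have h1 := eq_zero_of_deg hA (eff_of_mem hA.toLoc2 hs s0) (by
    rw [inter_comm, inter_lin hA.toRR _ _ s0, inter_comm, h0])
  rw [← inter_lin hA.toRR X Y s0, h1, inter_comm, inter_zero hA]

/-- The index theorem of Hodge. -/
theorem hodge (hA : S.All) (x : Div S.W) (hx : inter S.H x = 0) : inter x x ≤ 0 := by
  by_contra hcon
  rw [not_le] at hcon
  have key : ∀ n : ℤ, n ≠ 0 → 2 * chi (0 : Div S.W) + n * n * inter x x - n * inter S.kap x ≤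
      2 * h0 (S.kap - n • x) := by
    intro n hn
    have h1 := hA.le (n • x)
    have h2 := hA.rr (n • x)
    have h3 : H0 (n • x) = ⊥ := by
      by_contra hc
      have h4 := num_zero hA hc (by
        rw [← interHom_apply hA.toRR, map_zsmul, interHom_apply, hx, smul_zero]) x
      rw [← interHom_apply hA.toRR, map_zsmul, AddMonoidHom.zsmul_apply, smul_eq_mul,
        interHom_apply] at h4
      exact hcon.ne' ((mul_eq_zero.1 h4).resolve_left hn)
    rw [h0_bot h3] at h1
    simp only [← interHom_apply hA.toRR, map_zsmul, AddMonoidHom.zsmul_apply, smul_eq_mul] at h2 ⊢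
    linarith
  have a1 := abs_nonneg (inter S.kap x)
  have a2 := abs_nonneg (chi (0 : Div S.W))
  have a3 := h0_nonneg (S.kap + S.kap)
  have a4 := le_abs_self (inter S.kap x)
  have a5 := neg_abs_le (inter S.kap x)
  have a6 := neg_abs_le (chi (0 : Div S.W))
  set n : ℤ := |inter S.kap x| + 2 * |chi (0 : Div S.W)| + 2 * h0 (S.kap + S.kap) + 1 with hn
  have b0 : 0 < n := by omega
  have b1 := key n b0.ne'
  have b2 := key (-n) (by omega)
  have b3 : n * n ≤ n * n * inter x x := le_mul_of_one_le_right (mul_self_nonneg n) hcon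
  have b4 : ∀ y : ℤ, y ≤ |inter S.kap x| →
      2 * |chi (0 : Div S.W)| + 2 * h0 (S.kap + S.kap) + 1 ≤ n * n - n * y := fun y hy => by
    have c1 : 2 * |chi (0 : Div S.W)| + 2 * h0 (S.kap + S.kap) + 1 ≤ n - y := by omega
    have c2 : n - y ≤ n * (n - y) := le_mul_of_one_le_left (by omega) b0
    linarith
  have b5 := b4 _ a4
  have b6 := b4 (-inter S.kap x) (by omega)
  have b7 := h0_le_add hA (X := S.kap - n • x) (Y := S.kap - (-n) • x)
    (ne_bot_of_pos (by linarith))
  rw [show S.kap - n • x + (S.kap - (-n) • x) = S.kap + S.kap by rw [neg_smul]; abel] at b7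
  linarith

theorem hodge' (hA : S.All) {h x : Div S.W} (hh : 0 < inter h h) (hx : inter h x = 0) :
    inter x x ≤ 0 := by
  by_contra hcon
  rw [not_le] at hcon
  have h1 := hodge hA (inter S.H x • h - inter S.H h • x) (by
    rw [← interHom_apply hA.toRR, map_sub, map_zsmul, map_zsmul, smul_eq_mul, smul_eq_mul,
      interHom_apply, interHom_apply]
    ring)
  have h2 : inter S.H h ≠ 0 := fun h0 => absurd (hodge hA h h0) (not_le.mpr hh)
  have h3 := inter_comm x h
  rw [← interHom_apply hA.toRR] at h1
  simp only [map_sub, map_zsmul, AddMonoidHom.sub_apply, AddMonoidHom.zsmul_apply, smul_eq_mul,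
    interHom_apply, h3, hx] at h1
  have h4 : 0 < inter S.H h ^ 2 * inter x x := mul_pos (sq_pos_of_ne_zero h2) hcon
  have h5 : 0 ≤ inter S.H x ^ 2 * inter h h := mul_nonneg (sq_nonneg _) hh.le
  nlinarith

/-- The inequality of Hodge. -/
theorem hodge_ineq (hA : S.All) {h : Div S.W} (hh : 0 < inter h h) (x : Div S.W) :
    inter x x * inter h h ≤ inter h x ^ 2 := by
  have h1 := hodge' hA (x := inter h h • x - inter h x • h) hh (by
    rw [← interHom_apply hA.toRR, map_sub, map_zsmul, map_zsmul, smul_eq_mul, smul_eq_mul,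
      interHom_apply, interHom_apply]
    ring)
  have h3 := inter_comm x h
  rw [← interHom_apply hA.toRR] at h1
  simp only [map_sub, map_zsmul, AddMonoidHom.sub_apply, AddMonoidHom.zsmul_apply, smul_eq_mul,
    interHom_apply, h3] at h1
  nlinarith

/-- The case of equality. -/
theorem hodge_eq (hA : S.All) {h x : Div S.W} (hh : 0 < inter h h) (hx : inter h x = 0)
    (h0 : inter x x = 0) (y : Div S.W) : inter x y = 0 := by
  have key : ∀ n : ℤ, 2 * n * inter x y * inter h h + inter y y * inter h h ≤ inter h y ^ 2 := by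
    intro n
    have h1 := hodge_ineq hA hh (n • x + y)
    have h3 := inter_comm y x
    rw [← interHom_apply hA.toRR (n • x + y), ← interHom_apply hA.toRR h (n • x + y)] at h1
    simp only [map_add, map_zsmul, AddMonoidHom.add_apply, AddMonoidHom.zsmul_apply, smul_eq_mul,
      interHom_apply, h3, hx, h0] at h1
    nlinarith
  by_contra hc
  have h1 := key ((|inter h y ^ 2 - inter y y * inter h h| + 1) * inter x y)
  have h2 : 1 ≤ inter x y * inter x y * inter h h :=
    Int.add_one_le_of_lt (mul_pos (mul_self_pos.2 hc) hh)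
  have h3 := le_abs_self (inter h y ^ 2 - inter y y * inter h h)
  have h4 := abs_nonneg (inter h y ^ 2 - inter y y * inter h h)
  nlinarith

/-- The orthogonal of a class of square zero that is not numerically trivial. -/
theorem hodge_null (hA : S.All) {f x : Div S.W} (hf : inter f f = 0) (h1 : inter S.H f ≠ 0)
    (hx : inter f x = 0) : inter x x ≤ 0 := by
  by_contra hc
  rw [not_le] at hc
  exact h1 (by rw [inter_comm]; exact hodge_eq hA hc (by rw [inter_comm, hx]) hf _)

/-- Two orthogonal classes of square zero are proportional. -/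
theorem hodge_prop (hA : S.All) {f x : Div S.W} (hf : inter f f = 0) (hx : inter f x = 0)
    (h0 : inter x x = 0) (y : Div S.W) : inter S.H f * inter x y = inter S.H x * inter f y := by
  have h1 := hodge_eq hA (x := inter S.H f • x - inter S.H x • f) hA.sq (by
    rw [← interHom_apply hA.toRR, map_sub, map_zsmul, map_zsmul, smul_eq_mul, smul_eq_mul,
      interHom_apply, interHom_apply]
    ring) (by
    have h3 := inter_comm x f
    rw [← interHom_apply hA.toRR]
    simp only [map_sub, map_zsmul, AddMonoidHom.sub_apply, AddMonoidHom.zsmul_apply, smul_eq_mul,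
      interHom_apply, h3, hx, h0, hf]
    ring) y
  rw [← interHom_apply hA.toRR] at h1
  simp only [map_sub, map_zsmul, AddMonoidHom.sub_apply, AddMonoidHom.zsmul_apply, smul_eq_mul,
    interHom_apply] at h1
  linarith

/-- The inequality of Riemann and Roch. -/
theorem sec_of (hA : S.All) {x : Div S.W} (h1 : inter S.H S.kap < inter S.H x)
    (h2 : 0 < 2 * chi (0 : Div S.W) + inter x x - inter S.kap x) : H0 x ≠ ⊥ := by
  have h3 := hA.le x
  have h4 := hA.rr x
  rw [h0_bot (Rul.bot_of_neg hA (nef_H hA) (X := S.kap - x) (by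
    rw [← interHom_apply hA.toRR, map_sub, interHom_apply, interHom_apply]
    omega))] at h3
  exact ne_bot_of_pos (by omega)

/-- A multiple of a class in the positive cone is effective. -/
theorem eff_nsmul (hA : S.All) {x : Div S.W} (hx : 0 < inter x x) (hH : 0 < inter S.H x) :
    ∃ n : ℤ, 0 < n ∧ H0 (n • x) ≠ ⊥ := by
  have a1 := abs_nonneg (inter S.kap x)
  have a2 := abs_nonneg (inter S.H S.kap)
  have a3 := le_abs_self (inter S.kap x)
  have a4 := le_abs_self (inter S.H S.kap)
  have a5 := abs_nonneg (chi (0 : Div S.W))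
  have a6 := neg_abs_le (chi (0 : Div S.W))
  set n : ℤ := |inter S.kap x| + |inter S.H S.kap| + 2 * |chi (0 : Div S.W)| + 1 with hn
  refine ⟨n, by omega, sec_of hA ?_ ?_⟩
  · rw [← interHom_apply hA.toRR _ (n • x), map_zsmul, smul_eq_mul, interHom_apply]
    have a7 : n ≤ n * inter S.H x := le_mul_of_one_le_right (by omega) hH
    omega
  · rw [← interHom_apply hA.toRR (n • x), ← interHom_apply hA.toRR _ (n • x)]
    simp only [map_zsmul, AddMonoidHom.zsmul_apply, smul_eq_mul, interHom_apply]
    have a7 : n ≤ n * inter x x := le_mul_of_one_le_right (by omega) hx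
    have a8 : n * inter x x - inter S.kap x ≤ n * (n * inter x x - inter S.kap x) :=
      le_mul_of_one_le_left (by omega) (by omega)
    nlinarith

theorem nef_sec (hA : S.All) {D X : Div S.W} (h : ∀ C, 0 ≤ inter D (Finsupp.single C 1))
    (hX : H0 X ≠ ⊥) : 0 ≤ inter D X :=
  not_lt.1 fun e => hX (Rul.bot_of_neg hA h e)

theorem H_sec (hA : S.All) : H0 S.H ≠ ⊥ :=
  (Submodule.ne_bot_iff _).2 ⟨S.x 0, mem_H0_H hA.toLoc2 (S.x_mem 0), S.x_ne 0⟩

/-- The square of a nef class is not negative. -/
theorem nef_sq (hA : S.All) {P : Div S.W} (hP : ∀ C, 0 ≤ inter P (Finsupp.single C 1)) :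
    0 ≤ inter P P := by
  by_contra hcon
  rw [not_le] at hcon
  have hu : 0 ≤ inter P S.H := nef_sec hA hP (H_sec hA)
  have hv := hA.sq
  have hc := inter_comm S.H P
  have key : ∀ a b : ℤ, 0 ≤ a → 0 < b →
      0 < a * (a * inter P P + b * inter P S.H) + b * (a * inter P S.H + b * inter S.H S.H) →
      0 ≤ a * inter P P + b * inter P S.H := by
    intro a b ha hb h
    obtain ⟨n, hn, h1⟩ := eff_nsmul hA (x := a • P + b • S.H) (by
      rw [← interHom_apply hA.toRR]
      simp only [map_add, map_zsmul, AddMonoidHom.add_apply, AddMonoidHom.zsmul_apply, smul_eq_mul,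
        interHom_apply, hc]
      linarith) (by
      rw [← interHom_apply hA.toRR]
      simp only [map_add, map_zsmul, smul_eq_mul, interHom_apply, hc]
      exact add_pos_of_nonneg_of_pos (mul_nonneg ha hu) (mul_pos hb hv))
    have h2 := nef_sec hA hP h1
    rw [← interHom_apply hA.toRR] at h2
    simp only [map_add, map_zsmul, smul_eq_mul, interHom_apply] at h2
    exact nonneg_of_mul_nonneg_right h2 hn |>.trans le_rfl
  rcases hu.eq_or_lt with h0 | h0
  · have h1 := key 1 (1 - inter P P) zero_le_one (by omega) (by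
      rw [← h0]
      have a1 : (1 - inter P P) * (1 - inter P P) ≤
          (1 - inter P P) * (1 - inter P P) * inter S.H S.H :=
        le_mul_of_one_le_right (mul_self_nonneg _) hv
      nlinarith)
    rw [← h0] at h1
    omega
  · have h1 := key (2 * inter P S.H) (-2 * inter P P - 1) (by omega) (by omega) (by
      have a1 : 0 < (-2 * inter P P - 1) * (-2 * inter P P - 1) * inter S.H S.H :=
        mul_pos (mul_pos (by omega) (by omega)) hv
      have a2 : 0 ≤ inter P S.H * inter P S.H * (-2 * inter P P - 2) :=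
        mul_nonneg (mul_self_nonneg _) (by omega)
      nlinarith)
    nlinarith

/-- A curve which is negative on an effective class has negative square. -/
theorem sq_neg (hA : S.All) {X : Div S.W} (hX : H0 X ≠ ⊥) {C : Crv S.W}
    (h : inter X (Finsupp.single C 1) < 0) :
    inter (Finsupp.single C 1) (Finsupp.single C 1) < 0 := by
  obtain ⟨s, hs, s0⟩ := (Submodule.ne_bot_iff _).1 hX
  have h1 := eff_of_mem hA.toLoc2 hs s0
  rw [← inter_lin hA.toRR _ _ s0] at h
  generalize X + div S.W s = Z at h h1
  by_contra hc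
  rw [not_lt] at hc
  refine absurd (Rul.nef_eff hA (D := Finsupp.single C 1) (fun C' => ?_) h1)
    (not_le.2 (by rwa [inter_comm]))
  by_cases e : C' = C
  · rwa [e]
  · exact inter_nonneg hA.inte (Finsupp.single_nonneg.2 zero_le_one)
      (Finsupp.single_nonneg.2 zero_le_one) (Rul.single_or (Finsupp.single_eq_of_ne (Ne.symm e)))

end Hd

end Vale.Agent.P297Z.Sf
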