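import Vale.Agent.P297Y.Ctr.Ring

/-! The criterion of Castelnuovo. -/

set_option linter.all false

open IsLocalRing

namespace Vale.Agent.P297Z.Sf.Ct

variable {K : Type} [Field K] [Algebra ℂ K] {S : Surf K} {E : Crv S.W}

theorem inv_mem_loc_ctr {B O : Subalgebra ℂ K} [IsLocalRing O] (h : B ≤ O) {z : K}
    (hz : z ∈ loc B (ctr h) (ctr_isPrime h)) (h1 : z⁻¹ ∈ O) :
    z⁻¹ ∈ loc B (ctr h) (ctr_isPrime h) := by
  by_cases z0 : z = 0
  · rw [z0, inv_zero]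
    exact zero_mem _
  obtain ⟨a, b, hb, e⟩ := hz
  have b0 := ne_zero_of_notMem hb
  refine ⟨b, a, fun ha => ?_, by rw [← e, inv_mul_cancel_left₀ z0]⟩
  rw [mem_ctr, ← e, mul_inv] at ha
  exact ha.elim (mul_ne_zero z0 b0) fun h2 => h2 (mul_mem h1 (loc_ctr_le h (inv_mem_loc _ hb)))

theorem RE_hasVal (hA : S.All) [IsLocalRing (RE E)] : HasVal (RE E) := fun f => by
  obtain ⟨c, hc⟩ := RE_val hA f.2
  exact ⟨c, (RE_max hA _).2 hc⟩

namespace CD

variable (d : CD S E)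

theorem chart_up {a : K} (ha : a ∈ S.W) (a0 : a ≠ 0) {O : Subalgebra ℂ K}
    (h : ∀ b ∈ H0 d.L, b / a ^ (d.m + 1) ∈ O) : chart S.W a ≤ O := chart_le fun b hb => by
  have := h _ (d.le_L (d.pw a ha b hb))
  rwa [pow_succ', mul_div_mul_right _ _ (pow_ne_zero _ a0)] at this

theorem off_mem (hA : S.All) {x : Pt S.W} (hx : ¬ x.On E) {a : K} (ha : a ∈ S.W) (h : x.In a)
    {b : K} (hb : b ∈ H0 d.L) : b / a ^ (d.m + 1) ∈ x.ring :=
  (Mu.div_mem_ring hA.toLoc (d.gen_off hx ha h)).2 (secOn_mono (fun _ _ => ⟨trivial, le_rfl⟩) hb)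

theorem frac0 : ∃ u ∈ H0 d.L, IsFractionRing (chart (H0 d.L) u) K := by
  have := S.model.frac _ (S.x_mem 0) (S.x_ne 0)
  exact ⟨_, d.le_L (d.pw' (S.x_mem 0)), isFractionRing_of_le
    (d.chart_up (S.x_mem 0) (S.x_ne 0) fun b hb => div_mem_chart hb)⟩

theorem le_RE (hA : S.All) : chart (H0 d.L) d.w ≤ RE E := chart_le fun _ ha => d.div_mem hA ha

variable [IsLocalRing (RE E)]

theorem loc_eq (hA : S.All) :
    loc _ (ctr (d.le_RE hA)) (ctr_isPrime _) = RE E := by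
  have := Hd.fin hA d.L
  have := chart_finiteType (W := H0 d.L) d.w
  have : IsNoetherianRing (chart (H0 d.L) d.w) := Algebra.FiniteType.isNoetherianRing ℂ _
  obtain ⟨u, hu, h1⟩ := d.frac0
  have := NNb.frac_of hu h1 d.w_ne
  obtain ⟨δ, -, δ0, hδ⟩ := exists_den (chart (H0 d.L) d.w)
  have hle := loc_ctr_le (d.le_RE hA)
  have := ctr_isPrime (d.le_RE hA)
  have : IsNoetherianRing (loc _ (ctr (d.le_RE hA)) (ctr_isPrime _)) :=
    IsLocalization.isNoetherianRing (ctr (d.le_RE hA)).primeCompl _ inferInstance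
  have hm : ∀ {a : K} (ha : a ∈ H0 (d.L - Finsupp.single E 1)),
      a / d.w = 0 ∨ (a / d.w)⁻¹ ∉ loc _ (ctr (d.le_RE hA)) (ctr_isPrime _) := fun {a} ha =>
    ((mem_max_iff _).1 ((RE_max hA ⟨_, d.div_mem hA (d.le_L ha)⟩).2 (d.div_ord ha))).imp_right
      fun h1 h2 => h1 (hle h2)
  refine le_antisymm hle (le_of_nak hle δ0 (fun f hf => den_loc hδ _ _ ?_)
    (σ := ⟨_, le_loc _ _ _ (div_mem_chart (d.le_L d.hs))⟩)
    (τ := ⟨_, le_loc _ _ _ (div_mem_chart (d.le_L d.ht))⟩) ((mem_max_iff _).2 (hm d.hs))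
    ((mem_max_iff _).2 (hm d.ht)) fun f hf => d.decomp hA hf)
  by_contra hc
  obtain ⟨V, hV, h2⟩ := exists_dom_not _ hc
  obtain ⟨x, hx, -⟩ := exists_pt hA E V hV.const
  by_cases hE : x.On E
  · exact h2 (hx _ (hf x hE))
  obtain ⟨a, ha, h3⟩ := x.exists_in
  refine (hm (d.pw' ha)).elim (div_ne_zero (pow_ne_zero _ h3.1) d.w_ne) fun h4 => h4 ?_
  refine hV.2 _ (le_loc _ _ _ (div_mem_chart (d.le_L (d.pw' ha)))) (hx _ ?_)
  rw [inv_div]
  exact d.off_mem hA hE ha h3 d.hw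

theorem ctr_max (hA : S.All) : (ctr (d.le_RE hA)).IsMaximal := (RE_hasVal hA).ctr_isMaximal _

include d in
theorem reg (hA : S.All) : IsRegularLocalRing (RE E) := by
  have := Hd.fin hA d.L
  have := chart_finiteType (W := H0 d.L) d.w
  have : IsNoetherianRing (chart (H0 d.L) d.w) := Algebra.FiniteType.isNoetherianRing ℂ _
  obtain ⟨u, hu, h1⟩ := d.frac0
  have := NNb.frac_of hu h1 d.w_ne
  have := ctr_isPrime (d.le_RE hA)
  have : IsNoetherianRing (RE E) := by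
    rw [← d.loc_eq hA]
    exact IsLocalization.isNoetherianRing (ctr (d.le_RE hA)).primeCompl _ inferInstance
  have h2 : ringKrullDim (RE E) = 2 := by
    have h3 := d.ctr_max hA
    rw [← d.loc_eq hA, IsLocalization.AtPrime.ringKrullDim_eq_height (ctr (d.le_RE hA)),
      height_eq_two S.model.td _ _ h3]
    rfl
  let σ : RE E := ⟨_, d.div_mem hA (d.le_L d.hs)⟩
  let τ : RE E := ⟨_, d.div_mem hA (d.le_L d.ht)⟩
  have hσ := (RE_max hA σ).2 (d.div_ord d.hs)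
  have hτ := (RE_max hA τ).2 (d.div_ord d.ht)
  have h4 : maximalIdeal (RE E) ≤ Ideal.span {τ, σ} := fun f hf => by
    obtain ⟨c, g, hg, g', hg', e⟩ := d.decomp hA f.2
    have e1 : f = algebraMap ℂ _ c + (⟨g, hg⟩ * τ + ⟨g', hg'⟩ * σ) :=
      Subtype.ext (e.trans (add_assoc _ _ _))
    have h5 : algebraMap ℂ (RE E) c ∈ maximalIdeal (RE E) := by
      rw [eq_sub_of_add_eq e1.symm]
      exact sub_mem hf (add_mem (Ideal.mul_mem_left _ _ hτ) (Ideal.mul_mem_left _ _ hσ))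
    have h6 : c = 0 := by
      by_contra hc
      exact h5 ((IsUnit.mk0 c hc).map _)
    rw [e1, h6, map_zero, zero_add]
    exact Ideal.mem_span_pair.2 ⟨_, _, rfl⟩
  have h7 : maximalIdeal (RE E) = Ideal.span {τ, σ} := le_antisymm h4 (Ideal.span_le.2 (by
    rintro _ (rfl | rfl)
    exacts [hτ, hσ]))
  refine IsRegularLocalRing.of_spanFinrank_maximalIdeal_le _ ?_
  have h8 := Submodule.spanFinrank_span_le_ncard_of_finite (R := RE E)
    ((Set.finite_singleton σ).insert τ)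
  have h9 : ({τ, σ} : Set (RE E)).ncard ≤ 2 := (Set.ncard_insert_le _ _).trans (by simp)
  rw [h2, h7]
  exact_mod_cast h8.trans h9

/-- The local rings of the image. -/
theorem classify (hA : S.All) {u : K} (hu : u ∈ H0 d.L) (u0 : u ≠ 0)
    (P : Ideal (chart (H0 d.L) u)) (hP : P.IsPrime) : loc _ P hP = RE E ∨
      ∃ x : Pt S.W, ¬ x.On E ∧ x.ring ≤ loc _ P hP ∧ ∃ a ∈ S.W, a ≠ 0 ∧
        ∃ h : chart S.W a ≤ loc _ P hP, loc _ (ctr h) (ctr_isPrime h) = loc _ P hP := by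
  obtain ⟨V, hV⟩ := exists_dom (loc _ P hP)
  obtain ⟨x, hx, hx'⟩ := exists_pt hA E V hV.const
  have key : ∀ {z : K}, z ∈ H0 d.L → z ≠ 0 → u / z ∈ x.ring → ∀ b ∈ H0 d.L,
      b / z ∈ loc _ P hP := fun {z} hz z0 h b hb => by
    have h1 := hV.2 _ (le_loc _ _ _ (div_mem_chart hz)) (hx _ (by rwa [inv_div]))
    have h2 := mul_mem (le_loc _ P hP (div_mem_chart hb)) h1
    rwa [inv_div, div_mul_div_cancel₀ u0] at h2
  by_cases hE : x.On E
  · left
    have h1 : chart (H0 d.L) d.w ≤ loc _ P hP :=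
      chart_le (key d.hw d.w_ne (d.div_mem hA hu x hE))
    rw [← loc_chart_eq hu d.hw u0 d.w_ne hP h1, ← d.loc_eq hA]
    refine loc_congr _ _ (Ideal.ext fun a => ?_)
    have h2 := d.le_RE hA a.2
    constructor
    · intro h
      exact (mem_ctr _ _).2 (((mem_ctr _ _).1 h).imp_right fun h3 h4 =>
        h3 (hV.2 _ (h1 a.2) (hx _ (h4 x hE))))
    · intro h
      exact (mem_ctr _ _).2 (((RE_max hA ⟨a, h2⟩).1 h).imp_right fun h3 h4 =>
        hx' hE _ (h2 x hE) h3 (hV.1 _ h4))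
  · right
    obtain ⟨a, ha, h1⟩ := x.exists_in
    have h2 : chart S.W a ≤ loc _ P hP := d.chart_up ha h1.1
      (key (d.le_L (d.pw' ha)) (pow_ne_zero _ h1.1) (d.off_mem hA hE ha h1 hu))
    have h3 : x.ring ≤ loc _ (ctr h2) (ctr_isPrime h2) := by
      rw [← S.pt_loc x ha h1]
      refine loc_anti _ _ fun b hb => (mem_ctr _ _).2 (((mem_ctr _ _).1 hb).imp_right
        fun h4 h5 => h4 (hV.2 _ (h2 b.2) (hx _ h5)))
    refine ⟨x, hE, h3.trans (loc_ctr_le h2), a, ha, h1.1, h2,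
      loc_ctr_eq hP h2 (chart_le fun b hb => ?_)⟩
    have h4 := inv_mem_loc_ctr h2 (h3 (d.off_mem hA hE ha h1 hu)) (by
      rw [inv_div]
      exact le_loc _ _ _ (div_mem_chart (d.le_L (d.pw' ha))))
    have h5 := mul_mem (h3 (d.off_mem hA hE ha h1 hb)) h4
    rwa [inv_div, div_mul_div_cancel₀ (pow_ne_zero _ h1.1)] at h5

theorem model (hA : S.All) : IsModel (H0 d.L) := by
  refine Sf.model K _ (Hd.fin hA _) ((Submodule.ne_bot_iff _).2 ⟨_, d.hw, d.w_ne⟩) S.model.td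
    d.frac0 fun u hu u0 P hP => ?_
  rcases d.classify hA hu u0 P hP with h | ⟨x, -, -, a, ha, a0, h, e⟩
  · rw [h]
    exact d.reg hA
  · have := S.model.reg a ha a0
    rw [← e]
    exact loc_isRegularLocalRing _ _

theorem up (hA : S.All) {a : K} (ha : a ∈ S.W) (a0 : a ≠ 0) (Q : Ideal (chart S.W a))
    (hQ : Q.IsPrime) (h : ∀ b ∈ H0 d.L, b / a ^ (d.m + 1) ∈ loc _ Q hQ) :
    ∃ u ∈ H0 d.L, u ≠ 0 ∧ ∃ (P : Ideal (chart (H0 d.L) u)) (hP : P.IsPrime),
      loc _ P hP = loc _ Q hQ :=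
  ⟨_, d.le_L (d.pw' ha), pow_ne_zero _ a0, ctr (chart_le h), ctr_isPrime _,
    loc_ctr_eq hQ _ (d.chart_up ha a0 fun _ hb => le_loc _ _ _ (div_mem_chart hb))⟩

theorem exists_p (hA : S.All) (x : Pt S.W) : ∃ y : Pt (H0 d.L),
    (x.On E → y.ring = RE E) ∧ (¬ x.On E → y.ring = x.ring) := by
  by_cases hE : x.On E
  · exact ⟨⟨RE E, d.w, d.hw, d.w_ne, _, d.ctr_max hA, (d.loc_eq hA).symm⟩, fun _ => rfl,
      fun h => absurd hE h⟩
  · have := Hd.fin hA d.L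
    obtain ⟨a, ha, h1⟩ := x.exists_in
    have e := S.pt_loc x ha h1
    obtain ⟨u, hu, u0, P, hP, h2⟩ := d.up hA ha h1.1 (ctr h1.chart_le) (ctr_isPrime _)
      fun b hb => e.ge (d.off_mem hA hE ha h1 hb)
    have := chart_finiteType (W := H0 d.L) u
    exact ⟨⟨x.ring, u, hu, u0, P, (isMaximal_iff_hasVal P hP).2
      ((hasVal_congr (h2.trans e)).2 (S.pt_hasVal x)), (h2.trans e).symm⟩,
      fun h => absurd h hE, fun _ => rfl⟩

theorem exists_i (hA : S.All) (C : Crv (H0 d.L)) : ∃ X : Crv S.W, X.pl = C.pl ∧ X ≠ E := by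
  have := Hd.fin hA d.L
  obtain ⟨u, hu, u0, P, hP, h1, h2⟩ := C.prop
  have := chart_finiteType (W := H0 d.L) u
  rw [isMaximal_iff_hasVal P hP] at h1
  rcases d.classify hA hu u0 P hP with h | ⟨x, hx, h3, a, ha, a0, h, e⟩
  · exact absurd ((hasVal_congr h).2 (RE_hasVal hA)) h1
  · have := hA.ft a
    refine ⟨⟨C.pl, a, ha, a0, ctr h, ctr_isPrime h, fun h4 => h1 ((hasVal_congr e).1
      ((isMaximal_iff_hasVal _ _).1 h4)), fun f => by rw [e, h2]⟩, rfl, fun h4 => hx ?_⟩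
    rw [← h4]
    exact fun f hf => (h2 f).2 (h3 hf)

theorem exists_c (hA : S.All) {X : Crv S.W} (hX : X ≠ E) : ∃ C : Crv (H0 d.L), C.pl = X.pl := by
  have := Hd.fin hA d.L
  obtain ⟨a, ha, h1⟩ := X.exists_in
  have e := S.crv_loc X ha h1
  obtain ⟨u, hu, u0, P, hP, h2⟩ := d.up hA ha h1.1 (ctr (S.crv_le h1)) (ctr_isPrime _)
    fun b hb => e.ge (by
      by_cases b0 : b = 0
      · rw [b0, zero_div]
        exact zero_mem _
      have h3 := hb.resolve_left b0 X trivial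
      have h4 := d.off X hX a ha h1
      have h5 := pow_ne_zero (d.m + 1) h1.1
      rw [Crv.mem_alg, ← Pl.ord_nonneg_iff _ (div_ne_zero b0 h5), Pl.ord_div _ b0 h5]
      unfold Crv.ord at *
      omega)
  have := chart_finiteType (W := H0 d.L) u
  exact ⟨⟨X.pl, u, hu, u0, P, hP, fun h3 => S.crv_not_hasVal X ((hasVal_congr (h2.trans e)).1
    ((isMaximal_iff_hasVal P hP).1 h3)), fun f => by rw [h2, e]; rfl⟩, rfl⟩

end CD

theorem contr : CONTR := by
  intro K _ _ S hA E hE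
  obtain ⟨d⟩ := exists_CD hA hE
  have := RE_local hA (E := E)
  obtain ⟨S', e⟩ := Sf.nn K _ (d.model hA)
  refine ⟨S', ?_⟩
  obtain ⟨W', h1, h2, h3, h4, h5, h6⟩ := S'
  obtain rfl : W' = H0 d.L := e
  choose p hp hp' using d.exists_p hA
  choose ι hι hι' using d.exists_i hA
  refine ⟨⟨ι, hι, hι', fun X hX => ?_, p, fun x => ?_, fun y => ?_, fun x y h => ?_⟩⟩
  · obtain ⟨C, hC⟩ := d.exists_c hA hX
    exact ⟨C, Crv.ext ((hι C).trans hC)⟩
  · unfold Pt.Van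
    by_cases hx : x.On E
    · rw [hp x hx]
      exact ⟨RE_le hx, fun f hf => van_of_ord hx (hf.1 x hx)
        ((RE_max hA ⟨f, hf.1⟩).1 ((mem_max_iff _).2 hf.2))⟩
    · rw [hp' x hx]
      exact ⟨le_rfl, fun _ h => h⟩
  · have := Hd.fin hA d.L
    obtain ⟨u, hu, u0, P, hP, h7⟩ := y.prop
    have := chart_finiteType (W := H0 d.L) u
    rcases d.classify hA hu u0 P hP.isPrime with h | ⟨x, hx, h8, a, ha, a0, h, e⟩
    · exact ⟨d.y, Pt.ext ((hp _ d.yE).trans (h7.trans h).symm)⟩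
    · have h9 := hA.pt_ext x (Pt.ofMax ha a0 _ ((hasVal_loc P hP).ctr_isMaximal h))
        (h8.trans e.ge)
      refine ⟨x, Pt.ext ((hp' x hx).trans ?_)⟩
      rw [h9, h7]
      exact e
  · have h7 := congrArg Pt.ring h
    by_cases hx : x.On E <;> by_cases hy : y.On E
    · exact Or.inr ⟨hx, hy⟩
    · rw [hp x hx, hp' y hy] at h7
      exact absurd (fun f hf => RE_mem hA (h7.ge hf)) hy
    · rw [hp' x hx, hp y hy] at h7
      exact absurd (fun f hf => RE_mem hA (h7.le hf)) hx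
    · rw [hp' x hx, hp' y hy] at h7
      exact Or.inl (Pt.ext h7)

end Vale.Agent.P297Z.Sf.Ct
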