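import Vale.Agent.P297Z.Surf.Chart

/-! Valuation rings that dominate a local algebra, finiteness of the normalisation. -/

set_option linter.all false

open IsLocalRing Polynomial

namespace Vale.Agent.P297Z.Sf.Ct

variable {K : Type} [Field K] [Algebra ℂ K]

/-- A valuation ring as an algebra. -/
def valAlg (V : ValuationSubring K) (h : ∀ c, algebraMap ℂ K c ∈ V) : Subalgebra ℂ K :=
  { V.toSubring with algebraMap_mem' := h }

theorem mem_valAlg {V : ValuationSubring K} {h : ∀ c, algebraMap ℂ K c ∈ V} {f : K} :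
    f ∈ valAlg V h ↔ f ∈ V := Iff.rfl

instance (V : ValuationSubring K) (h : ∀ c, algebraMap ℂ K c ∈ V) : IsLocalRing (valAlg V h) :=
  inferInstanceAs (IsLocalRing V)

/-- The valuation ring `V` dominates `O`. -/
def Dom (O : Subalgebra ℂ K) (V : ValuationSubring K) : Prop :=
  (∀ f ∈ O, f ∈ V) ∧ ∀ f ∈ O, f⁻¹ ∈ V → f⁻¹ ∈ O

theorem Dom.const {O : Subalgebra ℂ K} {V : ValuationSubring K} (h : Dom O V) (c : ℂ) :
    algebraMap ℂ K c ∈ V := h.1 _ (O.algebraMap_mem c)

theorem dom_of {O : Subalgebra ℂ K} [IsLocalRing O] {V : ValuationSubring K}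
    (h1 : ∀ f ∈ O, f ∈ V) (h2 : ∀ f : O, f ∈ maximalIdeal O → (f : K) ∈ V.nonunits) : Dom O V := by
  refine ⟨h1, fun f hf h3 => ?_⟩
  by_contra hc
  have h4 := h2 ⟨f, hf⟩ ((mem_max_iff _).2 (Or.inr hc))
  rcases V.mem_nonunits_iff_or.1 h4 with h5 | h5
  · have h6 : f = 0 := h5
    rw [h6, inv_zero] at hc
    exact hc O.zero_mem
  · exact h5 h3

/-- The valuative criterion for a local algebra. -/
theorem exists_dom_not (O : Subalgebra ℂ K) [IsLocalRing O] {x : K} (hx : ¬ IsIntegral O x) :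
    ∃ V : ValuationSubring K, Dom O V ∧ x ∉ V := by
  have hx0 : x ≠ 0 := fun e => hx (e ▸ isIntegral_zero)
  let _ := invertibleOfNonzero (inv_ne_zero hx0)
  let B := Algebra.adjoin O {x⁻¹}
  let xinv : B := ⟨x⁻¹, Algebra.subset_adjoin rfl⟩
  have h1 : (maximalIdeal O).map (algebraMap O B) ⊔ .span {xinv} ≠ ⊤ := fun eq => hx <| by
    obtain ⟨p, hp, hpx⟩ := Algebra.exists_aeval_invOf_eq_zero_of_idealMap_adjoin_sup_span_eq_top _ _
      (maximalIdeal.isMaximal O).ne_top eq
    have H : IsUnit p.leadingCoeff := of_not_not fun h => by simpa using sub_mem h hp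
    replace hpx : eval₂ (algebraMap O K) x p = 0 := by
      rwa [invOf_eq_inv, inv_inv] at hpx
    exact ⟨.C H.unit⁻¹.1 * p, by simp [Polynomial.Monic], by simpa using .inr hpx⟩
  obtain ⟨V, hV⟩ := Ideal.image_subset_nonunits_valuationSubring (A := B.toSubring) _ h1
  refine ⟨V, dom_of (fun r hr => hV.1 (B.algebraMap_mem ⟨r, hr⟩)) fun r hr => ?_,
    (V.inv_mem_nonunits_iff.mp <|
      hV.2 ⟨_, Ideal.mem_sup_right (Ideal.subset_span rfl), rfl⟩).resolve_left hx0⟩
  exact hV.2 ⟨_, Ideal.mem_sup_left (Ideal.mem_map_of_mem _ hr), rfl⟩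

theorem exists_dom (O : Subalgebra ℂ K) [IsLocalRing O] : ∃ V : ValuationSubring K, Dom O V := by
  obtain ⟨V, h1, h2⟩ := IsLocalRing.exists_factor_valuationRing (O.val : O →+* K)
  refine ⟨V, fun f hf => h1 ⟨f, hf⟩, fun f hf h3 => ?_⟩
  by_cases h0 : f = 0
  · rw [h0, inv_zero]
    exact O.zero_mem
  exact ((isUnit_iff_inv _).1 (h2.1 ⟨f, hf⟩ (IsUnit.of_mul_eq_one ⟨_, h3⟩
    (Subtype.ext (mul_inv_cancel₀ h0))))).2

/-- A common denominator for the normalisation. -/
theorem exists_den (A : Subalgebra ℂ K) [Algebra.FiniteType ℂ A] [IsFractionRing A K] :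
    ∃ d ∈ A, d ≠ 0 ∧ ∀ f, IsIntegral A f → d * f ∈ A := by
  classical
  obtain ⟨n, g, hinj, hfin⟩ := exists_finite_inj_algHom_of_fg ℂ A
  let P := MvPolynomial (Fin n) ℂ
  let _ : Algebra P A := g.toRingHom.toAlgebra
  have : Module.Finite P A := hfin
  have : FaithfulSMul P A := (faithfulSMul_iff_algebraMap_injective _ _).2 hinj
  let _ : Algebra P K := ((algebraMap A K).comp (algebraMap P A)).toAlgebra
  have : IsScalarTower P A K := IsScalarTower.of_algebraMap_eq fun _ => rfl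
  have : FaithfulSMul P K := (faithfulSMul_iff_algebraMap_injective _ _).2
    ((IsFractionRing.injective A K).comp hinj)
  let _ := FractionRing.liftAlgebra P K
  have := FractionRing.isScalarTower_liftAlgebra P K
  have : FiniteDimensional (FractionRing P) K := .of_isLocalization P A (nonZeroDivisors P)
  let B := integralClosure P K
  have : Module.Finite P B := IsIntegralClosure.finite P (FractionRing P) K B
  obtain ⟨T, hT⟩ := Module.Finite.fg_top (R := P) (M := B)
  have h1 : ∀ b : B, ∃ d : A, d ≠ 0 ∧ (d : K) * b ∈ A := fun b => by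
    obtain ⟨a, d, hd, e⟩ := IsFractionRing.div_surjective (A := A) (b : K)
    have d0 := nonZeroDivisors.ne_zero hd
    refine ⟨d, d0, ?_⟩
    rw [← e]
    change (d : K) * ((a : K) / d) ∈ A
    rw [mul_div_cancel₀ _ (fun h => d0 (Subtype.ext h))]
    exact a.2
  choose d hd0 hd using h1
  refine ⟨(∏ b ∈ T, d b : A), (∏ b ∈ T, d b : A).2,
    fun e => Finset.prod_ne_zero_iff.2 (fun b _ => hd0 b) (Subtype.ext e), fun f hf => ?_⟩
  have key : ∀ b : B, ((∏ b ∈ T, d b : A) : K) * b ∈ A := fun b => by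
    have hb : b ∈ Submodule.span P (T : Set B) := hT ▸ Submodule.mem_top
    induction hb using Submodule.span_induction with
    | mem x hx =>
      rw [← Finset.mul_prod_erase T _ hx, mul_comm (d x)]
      push_cast
      rw [mul_assoc]
      exact mul_mem (prod_mem fun b _ => (d b).2) (hd x)
    | zero => simp
    | add x y _ _ hx hy =>
      push_cast at hx hy ⊢
      rw [mul_add]
      exact add_mem hx hy
    | smul r x _ hx =>
      have : ((r • x : B) : K) = (g r : K) * x := rfl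
      rw [this, mul_left_comm]
      exact mul_mem (g r).2 hx
  exact key ⟨f, isIntegral_trans (A := A) f hf⟩

theorem den_loc {A : Subalgebra ℂ K} {d : K} (h : ∀ f, IsIntegral A f → d * f ∈ A) (p : Ideal A)
    (hp : p.IsPrime) {f : K} (hf : IsIntegral (loc A p hp) f) : d * f ∈ loc A p hp := by
  have : IsScalarTower A (loc A p hp) K := IsScalarTower.of_algebraMap_eq fun _ => rfl
  obtain ⟨⟨u, hu⟩, h1⟩ := IsIntegral.exists_multiple_integral_of_isLocalization p.primeCompl f hf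
  refine ⟨⟨_, h _ h1⟩, u, hu, ?_⟩
  change d * f * u = d * (u * f)
  ring

/-- The lemma of Nakayama. -/
theorem le_of_nak {O R : Subalgebra ℂ K} [IsLocalRing O] [IsNoetherianRing O] (hle : O ≤ R) {d : K}
    (d0 : d ≠ 0) (hd : ∀ f ∈ R, d * f ∈ O) {σ τ : O} (hσ : σ ∈ maximalIdeal O)
    (hτ : τ ∈ maximalIdeal O) (h : ∀ f ∈ R, ∃ c : ℂ, ∃ g ∈ R, ∃ g' ∈ R,
      f = algebraMap ℂ K c + g * τ + g' * σ) : R ≤ O := by
  let I : Ideal O :=
    { carrier := {a | ∃ f ∈ R, (a : K) = d * f}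
      zero_mem' := ⟨0, R.zero_mem, by simp⟩
      add_mem' := by
        rintro a b ⟨f, hf, e⟩ ⟨g, hg, e'⟩
        exact ⟨f + g, add_mem hf hg, by push_cast; rw [e, e', mul_add]⟩
      smul_mem' := by
        rintro c a ⟨f, hf, e⟩
        exact ⟨c * f, mul_mem (hle c.2) hf, by
          rw [smul_eq_mul]; push_cast; rw [e]; ring⟩ }
  have dO : d ∈ O := by simpa using hd 1 R.one_mem
  have h1 : I ≤ Ideal.span {⟨d, dO⟩} := by
    refine Submodule.le_of_le_smul_of_le_jacobson_bot (IsNoetherian.noetherian I)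
      (maximalIdeal_le_jacobson _) ?_
    rintro a ⟨f, hf, e⟩
    obtain ⟨c, g, hg, g', hg', e'⟩ := h f hf
    have e2 : a = algebraMap ℂ O c * ⟨d, dO⟩ + (τ • ⟨_, hd g hg⟩ + σ • ⟨_, hd g' hg'⟩) := by
      apply Subtype.ext
      rw [e, e', smul_eq_mul, smul_eq_mul]
      push_cast
      ring
    rw [e2]
    exact Submodule.add_mem_sup (Ideal.mul_mem_left _ _ (Ideal.mem_span_singleton_self _))
      (add_mem (Submodule.smul_mem_smul hτ ⟨g, hg, rfl⟩) (Submodule.smul_mem_smul hσ ⟨g', hg', rfl⟩))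
  intro f hf
  obtain ⟨b, hb⟩ := Ideal.mem_span_singleton'.1 (h1 (show (⟨_, hd f hf⟩ : O) ∈ I from ⟨f, hf, rfl⟩))
  have h2 : (b : K) * d = d * f := congrArg Subtype.val hb
  rw [mul_comm] at h2
  rw [← mul_left_cancel₀ d0 h2]
  exact b.2

end Vale.Agent.P297Z.Sf.Ct
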