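import Vale.Agent.P297Y.Ctr.Defs
import Vale.Agent.P297Y.Ctr.Hodge

/-! The canonical class of a minimal fibred surface is nef. -/

set_option linter.all false

namespace Vale.Agent.P297Z.Sf.Ct

variable {K : Type} [Field K] [Algebra ℂ K] {S : Surf K}

theorem inter3 (hA : S.All) (a b c : ℤ) (X Y Z T : Div S.W) :
    inter (a • X + b • Y + c • Z) T = a * inter X T + b * inter Y T + c * inter Z T := by
  rw [← interHom_apply hA.toRR]
  simp only [map_add, map_zsmul, AddMonoidHom.add_apply, AddMonoidHom.zsmul_apply, smul_eq_mul,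
    interHom_apply]

theorem inter3' (hA : S.All) (a b c : ℤ) (X Y Z T : Div S.W) :
    inter T (a • X + b • Y + c • Z) = a * inter T X + b * inter T Y + c * inter T Z := by
  rw [inter_comm, inter3 hA, inter_comm X, inter_comm Y, inter_comm Z]

/-- The light cone lemma for a class of square zero. -/
theorem H_pos (hA : S.All) {F x : Div S.W} (hF : inter F F = 0) (h1 : 0 < inter S.H F)
    (h2 : 0 < inter F x) (hx : 0 ≤ inter x x) : 0 < inter S.H x := by
  have a1 := inter_comm F S.H
  have a2 := inter_comm x S.H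
  have h3 := Hd.hodge_null hA (x := inter S.H F • x - inter F x • S.H) hF h1.ne' (by
    rw [← interHom_apply hA.toRR, map_sub, map_zsmul, map_zsmul, interHom_apply, interHom_apply,
      smul_eq_mul, smul_eq_mul, a1]
    ring)
  rw [← interHom_apply hA.toRR] at h3
  simp only [map_sub, map_zsmul, AddMonoidHom.sub_apply, AddMonoidHom.zsmul_apply, smul_eq_mul,
    interHom_apply, a2] at h3
  have h4 := hA.sq
  generalize inter S.H F = a at *
  generalize inter F x = b at *
  generalize inter x x = c at *
  generalize inter S.H x = e at *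
  generalize inter S.H S.H = g at *
  by_contra hc
  have h5 : 0 ≤ a * a * c := by positivity
  have h6 : 0 < b * b * g := by positivity
  have h7 : a * b * e ≤ 0 := mul_nonpos_of_nonneg_of_nonpos (by positivity) (not_lt.1 hc)
  nlinarith

/-- On a fibred surface without exceptional curves the canonical class is nef. -/
theorem nef_K (hA : S.All) (hE : ∀ E, ¬ IsExc S E)
    (adj : ∀ C : Crv S.W, -2 ≤ inter (Finsupp.single C 1) (Finsupp.single C 1) +
      inter S.kap (Finsupp.single C 1)) {F : Div S.W}
    (hF : ∀ C, 0 ≤ inter F (Finsupp.single C 1)) (hF0 : inter F F = 0) (hH : 0 < inter S.H F)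
    (hK : 0 ≤ inter S.kap F) (hor : ∀ C, 0 < inter F (Finsupp.single C 1) →
      0 ≤ inter (Finsupp.single C 1) (Finsupp.single C 1) + inter S.kap (Finsupp.single C 1))
    (C : Crv S.W) : 0 ≤ inter S.kap (Finsupp.single C 1) := by
  have c1 := inter_comm F S.H
  have c2 := inter_comm F S.kap
  have c3 := inter_comm S.kap S.H
  have exc : ∀ C : Crv S.W, inter S.kap (Finsupp.single C 1) < 0 →
      0 ≤ inter (Finsupp.single C 1) (Finsupp.single C 1) := fun C h => by
    by_contra hc
    have := adj C
    exact hE C ⟨by omega, by omega⟩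
  have nef : ∀ a b c : ℤ, 0 < a → 0 ≤ b → 0 ≤ c →
      0 < inter (a • S.H + b • F + c • S.kap) (a • S.H + b • F + c • S.kap) →
      ∀ C, 0 ≤ inter (a • S.H + b • F + c • S.kap) (Finsupp.single C 1) := by
    intro a b c ha hb hc h C
    obtain ⟨n, hn, h1⟩ := Hd.eff_nsmul hA h (H_pos hA hF0 hH (by
      rw [inter3' hA, hF0, c1, c2]
      have := mul_pos ha hH
      have := mul_nonneg hc hK
      omega) h.le)
    by_contra h2
    have h3 := Hd.sq_neg hA h1 (C := C) (by
      rw [← interHom_apply hA.toRR, map_zsmul, AddMonoidHom.zsmul_apply, interHom_apply]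
      exact mul_neg_of_pos_of_neg hn (not_le.1 h2))
    rw [inter3 hA] at h2
    have h4 := mul_pos ha (hA.crv C)
    have h5 := mul_nonneg hb (hF C)
    refine absurd (exc C (not_le.1 fun h6 => ?_)) (not_le.2 h3)
    have := mul_nonneg hc h6
    omega
  by_contra hC
  rw [not_le] at hC
  obtain ⟨q, hq⟩ : ∃ q, q = inter S.H (Finsupp.single C 1) + inter F (Finsupp.single C 1) + 1 :=
    ⟨_, rfl⟩
  have q0 : 0 < q := by
    have := hA.crv C
    have := hF C
    omega
  have hqK := mul_nonneg q0.le hK
  by_cases hy : 0 ≤ inter S.H S.H + 2 * q * inter S.H S.kap + q * q * inter S.kap S.kap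
  · have h1 := nef 1 1 q one_pos zero_le_one q0.le (by
      rw [inter3 hA, inter3' hA, inter3' hA, inter3' hA, c1, c2, c3, hF0]
      linarith) C
    rw [inter3 hA] at h1
    have := mul_le_mul_of_nonneg_left (show inter S.kap (Finsupp.single C 1) ≤ -1 by omega) q0.le
    omega
  rw [not_le] at hy
  obtain ⟨a, ha⟩ : ∃ a, a = 2 * (inter S.H F + q * inter S.kap F) := ⟨_, rfl⟩
  obtain ⟨b, hb⟩ : ∃ b, b = -(inter S.H S.H + 2 * q * inter S.H S.kap +
    q * q * inter S.kap S.kap) := ⟨_, rfl⟩
  have a0 : 0 < a := by omega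
  have b0 : 0 < b := by omega
  have aq := mul_pos a0 q0
  obtain ⟨L, hL⟩ : ∃ L, L = a • S.H + b • F + (a * q) • S.kap := ⟨_, rfl⟩
  have l1 : ∀ T, inter L T = a * inter S.H T + b * inter F T + a * q * inter S.kap T := fun T => by
    rw [hL, inter3 hA]
  have l2 : inter L L = 0 := by
    rw [l1, inter_comm _ L, inter_comm _ L, inter_comm _ L, l1, l1, l1, c1, c2, c3, hF0]
    linear_combination (-a * b) * ha + a * a * hb
  have l3 : 0 < inter F L := by
    rw [inter_comm, l1, hF0]
    have := mul_pos a0 hH
    have := mul_nonneg aq.le hK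
    omega
  have l4 := H_pos hA hF0 hH l3 l2.ge
  have l5 : inter S.kap L < 0 := by
    by_contra hc
    have := l1 L
    have := mul_pos a0 l4
    have := mul_pos b0 l3
    have := mul_nonneg aq.le (not_lt.1 hc)
    omega
  have l6 : ∀ X, 0 ≤ inter L (Finsupp.single X 1) := fun X => by
    by_contra hc
    have h0 := hA.crv X
    obtain ⟨n, hn⟩ : ∃ n, n = inter S.H (Finsupp.single X 1) + 1 := ⟨_, rfl⟩
    have n0 : 0 < n := by omega
    have e : (n * a + 1) • S.H + (n * b) • F + (n * (a * q)) • S.kap =
        n • L + (1 : ℤ) • S.H + (0 : ℤ) • F := by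
      rw [hL]
      module
    have h1 := nef (n * a + 1) (n * b) (n * (a * q)) (by positivity) (by positivity)
      (by positivity) (by
        rw [e, inter3 hA, inter3' hA, inter3' hA, l2, inter_comm L S.H]
        have := mul_pos (show 0 < n by omega) l4
        have := hA.sq
        linarith) X
    rw [e, inter3 hA] at h1
    have := mul_le_mul_of_nonneg_left (show inter L (Finsupp.single X 1) ≤ -1 by omega)
      (show 0 ≤ n by omega)
    omega
  have a1 := abs_nonneg (chi (0 : Div S.W))
  have a2 := neg_abs_le (chi (0 : Div S.W))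
  have a3 := abs_nonneg (inter S.H S.kap)
  have a4 := le_abs_self (inter S.H S.kap)
  obtain ⟨n, hn⟩ : ∃ n, n = 2 * |chi (0 : Div S.W)| + |inter S.H S.kap| + 1 := ⟨_, rfl⟩
  have n0 : 0 < n := by omega
  have m1 : ∀ T, inter T (n • L) = n * inter T L := fun T => by
    rw [← interHom_apply hA.toRR, map_zsmul, interHom_apply, smul_eq_mul]
  have m2 := le_mul_of_one_le_right n0.le l4
  obtain ⟨s, hs, s0⟩ := (Submodule.ne_bot_iff _).1 (Hd.sec_of hA (x := n • L) (by
    rw [m1]
    omega) (by
    rw [m1, m1, inter_comm _ L, m1, l2]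
    have := mul_le_mul_of_nonneg_left (show inter S.kap L ≤ -1 by omega) n0.le
    omega))
  have z1 := eff_of_mem hA.toLoc2 hs s0
  have z2 : ∀ T, inter T (n • L + div S.W s) = n * inter T L := fun T => by
    rw [inter_comm, inter_lin hA.toRR _ _ s0, inter_comm, m1]
  generalize n • L + div S.W s = Z at z1 z2
  obtain ⟨X, hX⟩ : ∃ X, Z X ≠ 0 := by
    by_contra hc
    push Not at hc
    have := z2 S.H
    rw [show Z = 0 from Finsupp.ext hc, Hd.inter_zero hA] at this
    omega
  have x1 : inter L (Finsupp.single X 1) = 0 := by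
    have h1 := Rul.nef_eff hA l6 (Z := Z - Finsupp.single X 1) fun Y => by
      have h2 : 0 ≤ Z Y := z1 Y
      rw [Finsupp.sub_apply]
      by_cases e : Y = X
      · subst e
        rw [Finsupp.single_eq_same]
        change (0 : ℤ) ≤ _
        omega
      · rw [Finsupp.single_eq_of_ne e]
        simpa using h2
    rw [← interHom_apply hA.toRR, map_sub, interHom_apply, interHom_apply, z2, l2] at h1
    have := l6 X
    omega
  have x2 : inter S.kap (Finsupp.single X 1) < 0 := by
    by_contra hc
    have := l1 (Finsupp.single X 1)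
    have := mul_pos a0 (hA.crv X)
    have := mul_nonneg b0.le (hF X)
    have := mul_nonneg aq.le (not_lt.1 hc)
    omega
  have x3 := le_antisymm (Hd.hodge_null hA l2 l4.ne' x1) (exc X x2)
  have x4 := Hd.hodge_prop hA l2 x1 x3 F
  have x5 := hor X (by
    rw [inter_comm L F] at x4
    have := mul_pos (hA.crv X) l3
    rw [inter_comm]
    exact pos_of_mul_pos_left (this.trans_eq (x4.symm.trans (mul_comm _ _))) l4.le)
  omega

end Vale.Agent.P297Z.Sf.Ct
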