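import Vale.Agent.P297Y.Alg.Sk
import Vale.Agent.P297Y.Ctr.Model
import Vale.Agent.P297Y.Ctr.Nef

/-! The reduction to minimal surfaces. -/

set_option linter.all false

namespace Vale.Agent.P297Z.Sf.Ct

open Vale.Agent.P019P (CFF Plk LL gen dg dv prn)

variable {K : Type} [Field K] [Algebra ℂ K] {S S' : Surf K} {E : Crv S.W}

/-- On a curve of genus zero the divisors of degree zero are principal. -/
theorem prn_of_gen {F : Type} [Field F] [Algebra ℂ F] [CFF ℂ F] (h : gen ℂ F = 0)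
    {D : Plk ℂ F →₀ ℤ} (hD : dg D = 0) : D ∈ prn ℂ F := by
  have h1 := P019P.RR (k := ℂ) (- D)
  rw [map_neg, hD, h] at h1
  obtain ⟨z, hz, z0⟩ := Submodule.exists_mem_ne_zero_of_ne_bot (p := LL ℂ (- D)) fun e => by
    rw [e, finrank_bot] at h1
    omega
  refine ⟨z, z0, P019P.eq_of_le_of_dg_le (fun P => ?_) (by rw [P019P.dg_dv, hD])⟩
  have h2 := hz.resolve_left z0 P
  rwa [Finsupp.neg_apply, neg_neg, ← P019P.dv_apply] at h2

theorem kill_const (cs : S.Cs) {C : Crv S.W} (h : gen ℂ C.Fn = 0) {Q : Type} [AddCommGroup Q]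
    {c : Pt S.W → Q} (hc : S.Kill c) {x y : Pt S.W} (hx : x.On C) (hy : y.On C) : c x = c y := by
  obtain ⟨w, rfl⟩ := (cs.on_iff C x).1 hx
  obtain ⟨w', rfl⟩ := (cs.on_iff C y).1 hy
  have h1 := hc C _ (prn_of_gen h (D := Finsupp.single w 1 - Finsupp.single w' 1)
    (by rw [map_sub, P019P.dg_sgl, P019P.dg_sgl, sub_self]))
  rwa [map_sub, S.cyc_single, S.cyc_single, one_smul, one_smul, sub_eq_zero] at h1

/-- The geometric genus of the image. -/
theorem pg_down (hE : IsExc S E) (t : Contr S S' E) (h : H0 S.kap = ⊥) : H0 S'.kap = ⊥ := by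
  have hA := S.all
  obtain ⟨c, c0, hc⟩ := hA.change _ _ _ _ S.indep S'.indep
  refine (Submodule.eq_bot_iff _).2 fun f hf => by_contra fun f0 => ?_
  have g0 := mul_ne_zero f0 c0
  have h1 : ∀ C, C ≠ E → 0 ≤ (S.kap + div S.W (f * c)) C := fun C hC => by
    obtain ⟨C', rfl⟩ := t.all C hC
    have a1 := SB.isLeast_shift c0 hc (hA.least _ _ S.indep (t.ι C'))
    have a2 := S'.all.least _ _ S'.indep C'
    rw [← t.pl C'] at a2
    have a3 : S'.kap C' = S.kap (t.ι C') + (t.ι C').pl.ord c := a2.unique a1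
    have a4 := hf.resolve_left f0 C' trivial
    rw [Finsupp.add_apply, div_apply hA.toLoc2]
    unfold Crv.ord at *
    rw [Pl.ord_mul _ f0 c0]
    rw [← t.pl C'] at a4
    omega
  have h2 := inter_lin hA.toRR S.kap (Finsupp.single E 1) g0
  have h3 : ∀ C, (S.kap + div S.W (f * c)) C = C.ord (f * c) + S.kap C := fun C => by
    rw [Finsupp.add_apply, div_apply hA.toLoc2, add_comm]
  generalize S.kap + div S.W (f * c) = D at h1 h2 h3
  have h4 : (D - D E • Finsupp.single E (1 : ℤ)) E = 0 := by simp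
  have h5 := inter_nonneg hA.inte (one_nonneg E) (Z' := D - D E • Finsupp.single E (1 : ℤ))
    (fun C => by
      by_cases e : C = E
      · rw [e, h4]
        exact le_rfl
      · simpa [Finsupp.single_eq_of_ne e] using h1 C e) (Rul.single_or h4)
  rw [← interHom_apply hA.toRR, map_sub, map_zsmul, interHom_apply, interHom_apply, hE.1,
    inter_comm, h2, hE.2, smul_eq_mul] at h5
  refine g0 ((Submodule.eq_bot_iff _).1 h _ (Or.inr fun C _ => ?_))
  rw [← h3]
  by_cases e : C = E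
  · rw [e]
    omega
  · exact h1 C e

theorem kill_aux (cs : S.Cs) (cs' : S'.Cs) {p : Pt S.W → Pt S'.W} (hp : Dominates p)
    {Q : Type} [AddCommGroup Q] {c : Pt S'.W → Q} (hc : S.Kill (c ∘ p)) (C : Crv S.W)
    (C' : Crv S'.W) (e : C.pl = C'.pl) : ∀ D ∈ prn ℂ C'.Fn, S'.cyc c C' D = 0 := by
  obtain ⟨v, h⟩ := C
  obtain ⟨v', h'⟩ := C'
  obtain rfl : v = v' := e
  intro D hD
  refine Eq.trans ?_ (hc ⟨v, h⟩ D hD)
  have key : ∀ w, S'.pt ⟨v, h'⟩ w = p (S.pt ⟨v, h⟩ w) := fun w =>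
    (cs'.pt_iff _ w _).2 fun f hf => (cs.pt_iff ⟨v, h⟩ w _).1 rfl f ((hp _).1 hf)
  unfold Surf.cyc
  simp only [key]
  rfl

/-- The curves in the reducible fibres. -/
def Bad (P : Pen S) : Set (Crv S.W) := {C | ∃ p C', C' ≠ C ∧ P.Over C p ∧ P.Over C' p}

theorem bad_fin {P : Pen S} (b : P.Bas) (genf : GENF) : (Bad P).Finite := by
  obtain ⟨T, hT⟩ := genf K S P
  refine (T.finite_toSet.biUnion fun p _ => (P.fib p).support.finite_toSet).subset ?_
  rintro C ⟨p, C', e, h1, h2⟩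
  refine Set.mem_biUnion (x := p) (by_contra fun hp => e ?_)
    (Finsupp.mem_support_iff.2 (b.fib_pos C p h1).ne')
  obtain ⟨X, hX⟩ := hT p hp
  have key : ∀ Y, P.Over Y p → Y = X := fun Y hY => by_contra fun e' => by
    have := b.fib_pos Y p hY
    rw [hX.fib_eq, Finsupp.single_eq_of_ne e'] at this
    omega
  rw [key C h1, key C' h2]

theorem hor_ag (gle : GLE) {P : Pen S} (hg : 1 ≤ gen ℂ P.k) {C : Crv S.W} (h : P.Hor C) :
    0 ≤ S.ag C.cl := by
  have := Fact.mk h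
  have h1 := P025H492.gen_le ℂ P.k C.Fn
  have h2 := gle K S C
  omega

theorem exc_bad (gle : GLE) {P : Pen S} (b : P.Bas) (n : P.Num) (hg : 1 ≤ gen ℂ P.k)
    (hE : IsExc S E) : E ∈ Bad P := by
  have h1 : ¬ P.Hor E := fun h => by
    have := hor_ag gle hg h
    rw [Surf.ag, hE.1, hE.2] at this
    omega
  obtain ⟨p, hp⟩ := (b.dich E).resolve_left h1
  by_contra hc
  have h2 : P.fib p = P.fib p E • Finsupp.single E (1 : ℤ) := Finsupp.ext fun C => by
    by_cases e : C = E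
    · simp [e]
    · rw [b.fib_zero C p fun h => hc ⟨p, C, e, hp, h⟩]
      simp [Finsupp.single_eq_of_ne e]
  have h3 := (n.num_fib p E.cl).trans (n.F_vert E h1)
  have h4 := b.fib_pos E p hp
  rw [h2, ← interHom_apply S.all.toRR, map_zsmul, AddMonoidHom.zsmul_apply, interHom_apply, hE.1,
    smul_eq_mul] at h3
  omega

theorem pi_comp {p : Pt S.W → Pt S'.W} (hp : Dominates p) {k : IntermediateField ℂ K} [CFF ℂ k]
    {π : Pt S.W → Plk ℂ k} {π' : Pt S'.W → Plk ℂ k} (h : IsPi k π) (h' : IsPi k π') :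
    π' ∘ p = π := funext fun x => P019P.Plk.eq_of_le fun f hf => by
  refine (P019P.mem_iff_ord _ _).2 (or_iff_not_imp_left.2 fun f0 => not_lt.1 fun h1 => ?_)
  have h2 := ((h x f⁻¹).2 (by rw [P019P.ord_inv]; omega)).2
  rw [IntermediateField.coe_inv, inv_inv, inv_eq_zero] at h2
  exact h2.elim (fun e => f0 (Subtype.ext e)) fun e => e ((hp x).1 ((h' _ f).1
    (((P019P.mem_iff_ord _ _).1 hf).resolve_left f0)))

/-- The reduction to surfaces with nef canonical class and to ruled surfaces. -/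
theorem min (cs : CS) (gle : GLE) (penb : PENB) (penn : PENN) (genf : GENF) (mor : MOR)
    (regb : REGB) : MIN := by
  intro starn starr K _ _ S h φ π hπ
  generalize hn : (Bad (φ.pen π hπ)).ncard = n
  induction n using Nat.strong_induction_on generalizing S with
  | _ n ih =>
  have hA := S.all
  have hg : 1 ≤ gen ℂ (φ.pen π hπ).k := (regb K S hA φ).2
  have b := penb K S (φ.pen π hπ)
  have m := penn K S (φ.pen π hπ)
  by_cases hK : inter S.kap (φ.pen π hπ).F < 0
  · exact starr K S _ hK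
  by_cases hE : ∀ E, ¬ IsExc S E
  · refine starn K S h (nef_K hA hE (fun C => ?_) m.F_nef m.F_sq m.F_pos (not_lt.1 hK)
      fun C hC => hor_ag gle hg (by_contra fun e => hC.ne' (m.F_vert C e))) φ π hπ
    exact le_trans (by omega) (gle K S C)
  obtain ⟨E, hE⟩ := not_forall.1 hE
  replace hE := not_not.1 hE
  obtain ⟨S', ⟨t⟩⟩ := contr K S hA E hE
  let φ' : Fib S' := ⟨φ.k, φ.closed, φ.u, φ.a, φ.u_nc, φ.a_ne, fun C δ hδ => by
    rw [← t.pl C] at hδ ⊢
    exact φ.reg _ δ hδ⟩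
  obtain ⟨π', hπ'⟩ := mor K S' S'.all φ'
  have inj : Function.Injective t.ι := fun C C' e =>
    Crv.ext ((t.pl C).symm.trans (e ▸ t.pl C'))
  have ov : ∀ C p, (φ'.pen π' hπ').Over C p → (φ.pen π hπ).Over (t.ι C) p := fun C p h1 f => by
    rw [t.pl C]
    exact h1 f
  have lt : (Bad (φ'.pen π' hπ')).ncard < n := by
    rw [← hn, ← Set.ncard_image_of_injective _ inj]
    refine Set.ncard_lt_ncard ⟨?_, fun h1 => ?_⟩ (bad_fin b genf)
    · rintro _ ⟨C, ⟨p, C', e, h1, h2⟩, rfl⟩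
      exact ⟨p, t.ι C', inj.ne e, ov _ _ h1, ov _ _ h2⟩
    · obtain ⟨C, -, e⟩ := h1 (exc_bad gle b m hg hE)
      exact t.ne C e
  have st := ih _ lt S' (pg_down hE t h) φ' π' hπ' rfl
  intro Q _ c hc z hz
  have g0 : gen ℂ E.Fn = 0 := by
    have h1 := gle K S E
    rw [Surf.ag, hE.1, hE.2] at h1
    omega
  have e1 : (c ∘ Function.surjInv t.surj) ∘ t.p = c := funext fun x =>
    (t.inj _ _ (Function.surjInv_eq t.surj (t.p x))).elim (congrArg c)
      fun h1 => kill_const (cs K S) g0 hc h1.1 h1.2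
  have h1 := st Q (c ∘ Function.surjInv t.surj) (fun C => kill_aux (cs K S) (cs K S') t.dom
    (e1.symm ▸ hc) _ C (t.pl C)) (z.mapDomain t.p) (by
      rw [← Finsupp.mapDomain_comp]
      exact (pi_comp t.dom hπ hπ').symm ▸ hz)
  rw [Finsupp.sum_mapDomain_index (by simp) (by simp [add_smul])] at h1
  rw [← e1]
  exact h1

end Vale.Agent.P297Z.Sf.Ct
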