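import Vale.Agent.P297Y.Ctr.Sec
import Vale.Agent.P297Y.Ctr.Alg
import Vale.Agent.P297Z.Surf.RatRes
import Vale.Agent.P297Z.Surf.Adj

/-! The functions that are regular along an exceptional curve. -/

set_option linter.all false

open IsLocalRing

namespace Vale.Agent.P297Z.Sf.Ct

open Vale.Agent.P297 (PlaceOver IsFF)

variable {K : Type} [Field K] [Algebra ℂ K] {S : Surf K}

/-- The position of the centre of a valuation ring relative to a curve. -/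
theorem exists_pt (hA : S.All) (E : Crv S.W) (V : ValuationSubring K)
    (hV : ∀ c, algebraMap ℂ K c ∈ V) : ∃ x : Pt S.W, (∀ f ∈ x.ring, f ∈ V) ∧
      (x.On E → ∀ f ∈ x.ring, 0 < E.ord f → f⁻¹ ∉ V) := by
  obtain ⟨i, hi⟩ := hA.center V hV
  have h : chart S.W (S.x i) ≤ valAlg V hV := chart_le hi
  have key : ∀ (m : Ideal (chart S.W (S.x i))) (hm : m.IsMaximal), ctr h ≤ m →
      ∀ f ∈ (Pt.ofMax (S.x_mem i) (S.x_ne i) m hm).ring, f ∈ V := fun m hm hle f hf =>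
    loc_ctr_le h (loc_anti _ hm.isPrime hle hf)
  by_cases hE : ∃ hE : E.In (S.x i), ¬ ctr (S.crv_le hE) ≤ ctr h
  · obtain ⟨hE, h1⟩ := hE
    have := hA.ft (S.x i)
    have : IsJacobsonRing (chart S.W (S.x i)) := isJacobsonRing_of_finiteType (A := ℂ)
    rw [← IsJacobsonRing.out this (ctr_isPrime h).isRadical, Ideal.jacobson, le_sInf_iff] at h1
    push Not at h1
    obtain ⟨m, ⟨h2, hm⟩, h3⟩ := h1
    refine ⟨_, key m hm h2, fun hx => absurd ?_ h3⟩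
    rw [S.on_iff_le (S.x_mem i) (Pt.ofMax_in _ _ m hm) hE, Pt.ctr_ofMax] at hx
    exact hx
  · obtain ⟨m, hm, h2⟩ := (ctr h).exists_le_maximal (ctr_isPrime h).ne_top
    refine ⟨_, key m hm h2, fun hx f hf h3 h4 => ?_⟩
    have hE' : E.In (S.x i) := hx.crv_in (Pt.ofMax_in _ _ m hm)
    obtain ⟨a, b, hb, e⟩ := hf
    have b0 := ne_zero_of_notMem hb
    have f0 : f ≠ 0 := by
      rintro rfl
      simp [Crv.ord, Pl.ord_eq] at h3
    have a1 : a ∈ ctr (S.crv_le hE') := by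
      rw [Crv.mem_ctr, ← e]
      have := Pl.ord_nonneg_of_mem _ (hE'.chart_mem b.2)
      unfold Crv.ord at *
      rw [Pl.ord_mul _ f0 b0]
      omega
    have a2 : a ∈ ctr h := not_not.1 (fun hc => hE ⟨hE', hc⟩) a1
    rw [mem_ctr, ← e] at a2
    refine a2.elim (mul_ne_zero f0 b0) fun a3 => a3 ?_
    rw [mul_inv]
    exact V.mul_mem _ _ h4 (key m hm h2 _ (inv_mem_loc hm.isPrime hb))

/-- The functions that are regular at all the points of a curve. -/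
def RE (E : Crv S.W) : Subalgebra ℂ K where
  carrier := {f | ∀ x : Pt S.W, x.On E → f ∈ x.ring}
  mul_mem' := fun h1 h2 x hx => mul_mem (h1 x hx) (h2 x hx)
  add_mem' := fun h1 h2 x hx => add_mem (h1 x hx) (h2 x hx)
  algebraMap_mem' := fun c x _ => x.ring.algebraMap_mem c

variable {E : Crv S.W}

theorem RE_le {x : Pt S.W} (hx : x.On E) : RE E ≤ x.ring := fun _ hf => hf x hx

theorem RE_mem (hA : S.All) {f : K} (hf : f ∈ RE E) : f ∈ E.pl.ring := by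
  obtain ⟨x, -, -, hx, -⟩ := exists_on hA E
  exact hx _ (hf x hx)

theorem RE_val (hA : S.All) {f : K} (hf : f ∈ RE E) :
    ∃ c : ℂ, f - algebraMap ℂ K c = 0 ∨ 0 < E.ord (f - algebraMap ℂ K c) :=
  E.mem_flat.1 (E.flat_of_val (RE_mem hA hf) fun V h1 h2 => by
    obtain ⟨x, hx, -⟩ := exists_pt hA E V fun c => h1 _ (E.mem_flat.2 ⟨c, Or.inl (sub_self _)⟩)
    exact hx _ (hf x fun g hg => h2 (hx g hg)))

theorem van_of_ord {x : Pt S.W} {C : Crv S.W} (hx : x.On C) {f : K} (hf : f ∈ x.ring)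
    (h : f = 0 ∨ 0 < C.ord f) : x.Van f := by
  refine ⟨hf, h.imp_right fun h1 h2 => ?_⟩
  have h3 := Pl.ord_unit _ (hx _ hf) (hx _ h2)
  unfold Crv.ord at h1
  omega

theorem RE_inv {f : K} (hf : f ∈ RE E) {c : ℂ} (hc : c ≠ 0)
    (h : f - algebraMap ℂ K c = 0 ∨ 0 < E.ord (f - algebraMap ℂ K c)) :
    ∀ x : Pt S.W, x.On E → f ≠ 0 ∧ f⁻¹ ∈ x.ring := fun x hx =>
  Pt.inv_mem (hf x hx) fun h1 => hc (Pt.van_const (x := x) (by
    simpa using h1.sub (van_of_ord hx (sub_mem (hf x hx) (x.ring.algebraMap_mem c)) h)))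

theorem RE_unit (hA : S.All) {f : RE E} {c : ℂ} (hc : c ≠ 0)
    (h : f - algebraMap ℂ K c = 0 ∨ 0 < E.ord (f - algebraMap ℂ K c)) : IsUnit f := by
  obtain ⟨x, -, -, hx, -⟩ := exists_on hA E
  exact (isUnit_iff_inv _).2 ⟨(RE_inv f.2 hc h x hx).1, fun y hy => (RE_inv f.2 hc h y hy).2⟩

theorem RE_local (hA : S.All) : IsLocalRing (RE E) := by
  refine .of_isUnit_or_isUnit_one_sub_self fun f => ?_
  obtain ⟨c, hc⟩ := RE_val hA f.2
  by_cases h : c = 0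
  · refine Or.inr (RE_unit hA one_ne_zero ?_)
    rw [h, map_zero, sub_zero] at hc
    have e : ((1 - f : RE E) : K) - algebraMap ℂ K 1 = algebraMap ℂ K (-1) * f := by simp
    rw [e]
    by_cases f0 : (f : K) = 0
    · exact Or.inl (by rw [f0, mul_zero])
    have h1 := E.ord_const (-1)
    unfold Crv.ord at *
    rw [Pl.ord_mul _ (by simp) f0, h1, zero_add]
    exact Or.inr (hc.resolve_left f0)
  · exact Or.inl (RE_unit hA h hc)

theorem RE_max (hA : S.All) [IsLocalRing (RE E)] (f : RE E) :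
    f ∈ maximalIdeal (RE E) ↔ (f : K) = 0 ∨ 0 < E.ord f := by
  constructor
  · intro h
    obtain ⟨c, hc⟩ := RE_val hA f.2
    by_cases h0 : c = 0
    · rwa [h0, map_zero, sub_zero] at hc
    · exact absurd (RE_unit hA h0 hc) h
  · intro h
    obtain ⟨x, -, -, hx, -⟩ := exists_on hA E
    exact (mem_max_iff _).2 ((van_of_ord hx (f.2 x hx) h).2.imp_right fun h1 h2 => h1 (h2 x hx))

namespace CD

variable (d : CD S E)

theorem w_ne : d.w ≠ 0 := (d.gw _ d.yE).1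

theorem le_L {a : K} (ha : a ∈ H0 (d.L - Finsupp.single E 1)) : a ∈ H0 d.L :=
  secOn_mono (fun C _ => ⟨trivial, sub_le_self d.L (one_nonneg E) C⟩) ha

theorem div_mem (hA : S.All) {a : K} (ha : a ∈ H0 d.L) : a / d.w ∈ RE E := fun x hx =>
  (Mu.div_mem_ring hA.toLoc (d.gw x hx)).2 (secOn_mono (fun _ _ => ⟨trivial, le_rfl⟩) ha)

theorem div_ord {a : K} (ha : a ∈ H0 (d.L - Finsupp.single E 1)) :
    a / d.w = 0 ∨ 0 < E.ord (a / d.w) := by
  by_cases a0 : a = 0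
  · exact Or.inl (by rw [a0, zero_div])
  have h1 := ha.resolve_left a0 E trivial
  have h2 := (d.gw _ d.yE).2 E d.yE
  rw [Finsupp.sub_apply, Finsupp.single_eq_same] at h1
  unfold Crv.ord at *
  rw [Pl.ord_div _ a0 d.w_ne]
  omega

theorem pw' {a : K} (ha : a ∈ S.W) : a ^ (d.m + 1) ∈ H0 (d.L - Finsupp.single E 1) := by
  rw [pow_succ']
  exact d.pw a ha a ha

theorem gen_off {x : Pt S.W} (hx : ¬ x.On E) {a : K} (ha : a ∈ S.W) (h : x.In a) :
    GenAt x d.L (a ^ (d.m + 1)) :=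
  ⟨pow_ne_zero _ h.1, fun C hC => d.off C (fun e => hx (e ▸ hC)) a ha (hC.crv_in h)⟩

theorem gen_div {x : Pt S.W} (hx : x.On E) {D : Div S.W} {a : K} (h : GenAt x (d.L - D) a) :
    GenAt x (-D) (a / d.w) := ⟨div_ne_zero h.1 d.w_ne, fun C hC => by
  have h1 := h.2 C hC
  have h2 := (d.gw x hx).2 C hC
  rw [Finsupp.sub_apply] at h1
  rw [Finsupp.neg_apply]
  unfold Crv.ord at *
  rw [Pl.ord_div _ h.1 d.w_ne]
  omega⟩

theorem chart_mul (hA : S.All) {a : K} (ha : a ∈ S.W) (a0 : a ≠ 0) {f : K} (hf : f ∈ chart S.W a) :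
    ∃ n : ℕ, ∀ k, n ≤ k → f * (a ^ (d.m + 1) / d.w) ^ k ∈ RE E := by
  have hu := d.div_mem hA (d.le_L (d.pw' ha))
  have up : ∀ {f : K} (n : ℕ), f * (a ^ (d.m + 1) / d.w) ^ n ∈ RE E →
      ∀ k, n ≤ k → f * (a ^ (d.m + 1) / d.w) ^ k ∈ RE E := fun n h k hk => by
    obtain ⟨j, rfl⟩ := Nat.exists_eq_add_of_le hk
    rw [pow_add _ n, ← mul_assoc]
    exact mul_mem h (pow_mem hu j)
  induction hf using Algebra.adjoin_induction with
  | mem f hf =>
    obtain ⟨b, hb, rfl⟩ := hf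
    refine ⟨1, up 1 ?_⟩
    have e : b / a * (a ^ (d.m + 1) / d.w) ^ 1 = b * a ^ d.m / d.w := by
      rw [pow_one, pow_succ]
      field_simp
    rw [e]
    exact d.div_mem hA (d.le_L (d.pw a ha b hb))
  | algebraMap c => exact ⟨0, up 0 (by simpa using (RE E).algebraMap_mem c)⟩
  | add f g _ _ h1 h2 =>
    obtain ⟨n, h1⟩ := h1
    obtain ⟨n', h2⟩ := h2
    exact ⟨n + n', fun k hk => by
      rw [add_mul]
      exact add_mem (h1 k (by omega)) (h2 k (by omega))⟩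
  | mul f g _ _ h1 h2 =>
    obtain ⟨n, h1⟩ := h1
    obtain ⟨n', h2⟩ := h2
    refine ⟨n + n', up _ ?_⟩
    rw [pow_add _ n, mul_mul_mul_comm]
    exact mul_mem (h1 n le_rfl) (h2 n' le_rfl)

theorem ord_u {a : K} (ha : a ∈ S.W) (h : d.C.In a) : d.C.ord (a ^ (d.m + 1) / d.w) = 0 := by
  have h1 := d.off d.C d.ne a ha h
  have h2 := (d.gw _ d.yE).2 d.C d.yC
  unfold Crv.ord at *
  rw [Pl.ord_div _ (pow_ne_zero _ h.1) d.w_ne]
  omega

/-- The maximal ideal has two generators. -/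
theorem decomp (hA : S.All) {f : K} (hf : f ∈ RE E) : ∃ c : ℂ, ∃ g ∈ RE E, ∃ g' ∈ RE E,
    f = algebraMap ℂ K c + g * (d.t / d.w) + g' * (d.s / d.w) := by
  have := RE_local hA (E := E)
  have := Surf.isFF hA.toLoc1 d.C
  have hR : ∀ f ∈ RE E, f ∈ d.C.pl.ring := fun f hf => d.yC _ (hf _ d.yE)
  let τ : RE E := ⟨_, d.div_mem hA (d.le_L d.ht)⟩
  have g1 := d.gen_div d.yE d.gt
  obtain ⟨m1, m2⟩ := Surf.mult_eq hA.toLoc d.yC (Finsupp.single_eq_of_ne d.ne)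
    ⟨_, τ.2 _ d.yE⟩ g1
  have hu : ∀ {a : K} (ha : a ∈ S.W), d.C.In a →
      d.C.rho hR ⟨_, d.div_mem hA (d.le_L (d.pw' ha))⟩ ≠ 0 := fun {a} ha h e => by
    rcases (d.C.rho_eq_zero hR _).1 e with h1 | h1
    · exact div_ne_zero (pow_ne_zero _ h.1) d.w_ne h1
    · exact (d.ord_u ha h).not_gt h1
  have h1 := Len.len (d.C.rho hR) (fun e => ?_) ((RE_max hA τ).2 (d.div_ord d.ht)) m1 τ m1
  swap
  · obtain ⟨a, ha, h⟩ := d.C.exists_in
    obtain ⟨p, q, h2, h3⟩ := Surf.frac_chart hA.toLoc1 d.C ha h e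
    obtain ⟨n, hn⟩ := d.chart_mul hA ha h.1 p.2
    obtain ⟨n', hn'⟩ := d.chart_mul hA ha h.1 q.2
    have key : ∀ (r : chart S.W a) (hr : r * (a ^ (d.m + 1) / d.w) ^ (n + n') ∈ RE E),
        d.C.rho hR ⟨_, hr⟩ = d.C.rho (fun _ => h.chart_mem) r *
          d.C.rho hR ⟨_, d.div_mem hA (d.le_L (d.pw' ha))⟩ ^ (n + n') := fun r hr => by
      rw [Crv.rho_apply, Crv.rho_apply, Crv.rho_apply, ← map_pow, ← map_mul]
      rfl
    refine ⟨⟨_, hn (n + n') (by omega)⟩, ⟨_, hn' (n + n') (by omega)⟩, ?_, ?_⟩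
    · rw [key]
      exact mul_ne_zero h2 (pow_ne_zero _ (hu ha h))
    · rw [key, key, ← h3]
      ring
  have h2 : ∀ v : PlaceOver ℂ d.C.Fn, (∀ r, d.C.rho hR r ∈ v.1.ring) ↔
      ∀ r, d.C.rho d.yC r ∈ v.1.ring := fun v => by
    refine ⟨fun h => ?_, fun h r => h ⟨r, r.2 _ d.yE⟩⟩
    obtain ⟨x, hx⟩ := Surf.exists_center hA.toLoc1 d.C v
    have a1 := Crv.on_of_le hx
    have a2 : x.On E := by
      by_contra hc
      obtain ⟨a, ha, a3⟩ := x.exists_in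
      have a4 := hu ha (a1.crv_in a3)
      have a5 := (Len.dom (d.C.rho hR) h ((RE_max hA ⟨_, d.div_mem hA (d.le_L (d.pw' ha))⟩).2
        (d.div_ord (d.pw' ha)))).resolve_left a4
      obtain ⟨a6, a7⟩ := hx ((Mu.div_mem_ring hA.toLoc (d.gen_off hc ha a3)).2
        (secOn_mono (fun _ _ => ⟨trivial, le_rfl⟩) d.hw))
      obtain ⟨-, a8, a9⟩ := d.C.resid_inv _ a4
      have a10 : d.C.resid ⟨_, a6⟩ = d.C.resid ⟨_, a8⟩ := congrArg _ (Subtype.ext (inv_div _ _).symm)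
      rw [a10, a9] at a7
      exact (Pl.ord_unit _ (h _) a7).not_gt a5
    rw [d.uniq x a2 a1] at hx
    exact (Crv.le_cv_iff d.yC).1 hx
  rw [finsum_subtype_eq_finsum_cond (f := fun v : PlaceOver ℂ d.C.Fn =>
    v.1.ord (d.C.rho hR τ))] at h1
  rw [finsum_subtype_eq_finsum_cond (f := fun v : PlaceOver ℂ d.C.Fn =>
    v.1.ord (d.C.rho d.yC ⟨_, τ.2 _ d.yE⟩)), d.one] at m2
  simp only [h2] at h1
  have h3 : Module.finrank ℂ (RE E ⧸ (RingHom.ker (d.C.rho hR) ⊔ Ideal.span {τ})) = 1 := by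
    exact_mod_cast h1.trans m2.symm
  have := Module.nontrivial_of_finrank_pos (h3 ▸ one_pos)
  obtain ⟨c, hc⟩ := (finrank_eq_one_iff_of_nonzero' _ one_ne_zero).1 h3
    (Ideal.Quotient.mk _ ⟨f, hf⟩)
  have h4 : (⟨f, hf⟩ : RE E) - algebraMap ℂ _ c ∈ RingHom.ker (d.C.rho hR) ⊔ Ideal.span {τ} := by
    rw [← Ideal.Quotient.eq, ← hc, Algebra.smul_def, mul_one]
    rfl
  obtain ⟨j, hj, k, hk, e⟩ := Submodule.mem_sup.1 h4
  obtain ⟨g, rfl⟩ := Ideal.mem_span_singleton'.1 hk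
  have j1 := (d.C.rho_eq_zero hR j).1 hj
  have j2 := (RE_max hA j).1 ((mem_max_iff _).2
    ((van_of_ord d.yC (j.2 _ d.yE) j1).2.imp_right fun h1 h2 => h1 (h2 _ d.yE)))
  have s0 := (d.gen_div d.yE (by rw [← sub_sub]; exact d.gs _ d.yE)).1
  refine ⟨c, g, g.2, j / (d.s / d.w), fun x hx => ?_, ?_⟩
  · refine (Mu.div_mem_ring hA.toLoc (d.gen_div hx (by rw [← sub_sub]; exact d.gs _ hx))).2 ?_
    by_cases j0 : (j : K) = 0
    · exact Or.inl j0
    refine Or.inr fun X hX => ?_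
    have b1 := j1.resolve_left j0
    have b2 := j2.resolve_left j0
    have b3 : 0 ≤ X.ord j := Pl.ord_nonneg_of_mem _ (hX _ (j.2 x hx))
    rw [Finsupp.neg_apply, Finsupp.add_apply]
    by_cases e1 : X = E
    · rw [e1, Finsupp.single_eq_same, Finsupp.single_eq_of_ne d.ne.symm]
      omega
    by_cases e2 : X = d.C
    · rw [e2, Finsupp.single_eq_same, Finsupp.single_eq_of_ne d.ne]
      omega
    rw [Finsupp.single_eq_of_ne e1, Finsupp.single_eq_of_ne e2]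
    omega
  · have e' : (j : K) + g * (d.t / d.w) = f - algebraMap ℂ K c := congrArg Subtype.val e
    rw [div_mul_cancel₀ _ s0]
    linear_combination -e'

end CD

end Vale.Agent.P297Z.Sf.Ct
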