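import Vale.Agent.P297Y.Ctr.Defs
import Vale.Agent.P297Y.Ctr.Hodge

/-! The linear system that contracts an exceptional curve. -/

set_option linter.all false

open IsLocalRing

namespace Vale.Agent.P297Z.Sf

variable {K : Type} [Field K] [Algebra ℂ K] {S : Surf K}

namespace Ct

theorem one_nonneg (C : Crv S.W) : (0 : Div S.W) ≤ Finsupp.single C 1 :=
  Finsupp.single_nonneg.2 zero_le_one

theorem coef_zero (hA : S.All) {C : Crv S.W} {D : Div S.W} {s : K} (hs : s ∈ H0 D)
    (hs' : s ∉ H0 (D - Finsupp.single C 1)) : s ≠ 0 ∧ (D + div S.W s) C = 0 := by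
  have s0 : s ≠ 0 := fun e => hs' (Or.inl e)
  have e1 := eff_of_mem hA.toLoc2 hs s0
  refine ⟨s0, ?_⟩
  by_contra hc
  refine hs' (Or.inr fun X _ => ?_)
  have b1 : 0 ≤ (D + div S.W s) X := e1 X
  rw [Finsupp.add_apply, div_apply hA.toLoc2] at b1 hc
  rw [Finsupp.sub_apply]
  by_cases e : X = C
  · subst e
    rw [Finsupp.single_eq_same]
    omega
  · rw [Finsupp.single_eq_of_ne e]
    omega

theorem exists_on (hA : S.All) (C : Crv S.W) : ∃ x y : Pt S.W, x ≠ y ∧ x.On C ∧ y.On C := by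
  obtain ⟨w, hw, h⟩ := C.exists_in
  obtain ⟨x, hx, y, hy, e⟩ := (hA.inf_pt C w hw h).nontrivial
  exact ⟨x, y, e, hx.1, hy.1⟩

theorem mult_le (hA : S.All) {C : Crv S.W} {Z : Div S.W} (hZ : 0 ≤ Z) (h : Z C = 0)
    (x : Pt S.W) : (mult x (Finsupp.single C 1) Z : ℤ) ≤ inter (Finsupp.single C 1) Z := by
  rw [inter_eq hA.inte (one_nonneg C) hZ (Rul.single_or h)]
  exact single_le_finsum (f := fun z => (mult z (Finsupp.single C 1) Z : ℤ)) x
    ((Mu.finite_mult hA.toLoc hA.multPos (one_nonneg C) hZ (Rul.single_or h)).subset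
      fun z hz => by simpa using hz) fun _ => Int.natCast_nonneg _

/-- The restriction of sections to a curve. -/
theorem h0_le (hA : S.All) (D : Div S.W) (C : Crv S.W) (h : -1 ≤ inter D (Finsupp.single C 1)) :
    h0 D ≤ h0 (D - Finsupp.single C 1) + inter D (Finsupp.single C 1) + 1 := by
  by_contra hc
  obtain ⟨x, -, -, hx, -⟩ := exists_on hA C
  have := hA.reg x
  obtain ⟨N, hN⟩ := Int.eq_ofNat_of_zero_le (show 0 ≤ inter D (Finsupp.single C 1) + 1 by omega)
  obtain ⟨J, h1, h2, h3, h4⟩ := Rul.exists_ideal (R := x.ring) (fun f => by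
    obtain ⟨c, hc⟩ := hA.val x f f.2
    exact ⟨c, (x.mem_max _).2 hc⟩) (idl x (Finsupp.single C 1)) N
  obtain ⟨s, hs, hs', h5⟩ := Rul.exists_cut hA D x J (D - Finsupp.single C 1) (by omega)
  obtain ⟨s0, h6⟩ := coef_zero hA hs hs'
  have e1 := eff_of_mem hA.toLoc2 hs s0
  have h7 : Module.finrank ℂ (x.ring ⧸ J) = N := h4.resolve_left fun e => by
    obtain ⟨a, a0, a1, a2⟩ := Mu.exists_eqn hA.toLoc x e1
    rw [e, a1, Ideal.span_singleton_le_iff_mem] at h5
    have b1 := (mem_idl.1 h5).resolve_left (fun b => a0 (Subtype.ext b)) C hx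
    rw [a2 C hx, h6, Finsupp.neg_apply, Finsupp.single_eq_same] at b1
    omega
  have h8 : N ≤ mult x (Finsupp.single C 1) (D + div S.W s) := by
    have := (hA.multPos x _ _ (one_nonneg C) e1 (Rul.single_or h6)).1
    rw [← h7]
    refine LinearMap.finrank_le_finrank_of_surjective
      (f := (Ideal.Quotient.factorₐ ℂ (sup_le h1 h5)).toLinearMap) fun q => ?_
    obtain ⟨r, rfl⟩ := Ideal.Quotient.mk_surjective q
    exact ⟨Ideal.Quotient.mk _ r, rfl⟩
  have h9 := mult_le hA e1 h6 x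
  rw [inter_comm, inter_lin hA.toRR _ _ s0] at h9
  omega

theorem chi_step (hA : S.All) {E : Crv S.W} (hE : IsExc S E) (D : Div S.W) :
    chi D = chi (D - Finsupp.single E 1) + inter D (Finsupp.single E 1) + 1 := by
  have b1 := hA.rr D
  have b2 := hA.rr (D - Finsupp.single E 1)
  have b3 := inter_comm D (Finsupp.single E 1)
  obtain ⟨h1, h2⟩ := hE
  simp only [← interHom_apply hA.toRR, map_sub, AddMonoidHom.sub_apply] at b1 b2 b3 h1 h2 ⊢
  omega

/-- The vanishing of the higher cohomology. -/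
theorem h0_eq_chi (hA : S.All) {E : Crv S.W} (hE : IsExc S E) {D : Div S.W} (h1 : h0 D = chi D)
    (h2 : inter S.H S.kap < inter S.H D) (j : ℕ) (hj : (j : ℤ) ≤ inter D (Finsupp.single E 1)) :
    h0 (D + (j : ℤ) • Finsupp.single E 1) = chi (D + (j : ℤ) • Finsupp.single E 1) := by
  induction j with
  | zero => simpa using h1
  | succ j ih =>
    have a1 := ih (by omega)
    have a2 : D + ((j + 1 : ℕ) : ℤ) • Finsupp.single E 1 - Finsupp.single E 1 =
        D + (j : ℤ) • Finsupp.single E 1 := by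
      push_cast
      rw [add_smul, one_smul]
      abel
    have a3 := chi_step hA hE (D + ((j + 1 : ℕ) : ℤ) • Finsupp.single E 1)
    have a4 := h0_le hA (D + ((j + 1 : ℕ) : ℤ) • Finsupp.single E 1) E (by
      rw [← interHom_apply hA.toRR, map_add, map_zsmul, AddMonoidHom.add_apply,
        AddMonoidHom.zsmul_apply, interHom_apply, interHom_apply, hE.1, smul_eq_mul]
      omega)
    have a5 := hA.le (D + ((j + 1 : ℕ) : ℤ) • Finsupp.single E 1)
    rw [h0_bot (Rul.bot_of_neg hA (Hd.nef_H hA)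
      (X := S.kap - (D + ((j + 1 : ℕ) : ℤ) • Finsupp.single E 1)) (by
      have b1 := mul_nonneg (Int.natCast_nonneg (j + 1)) (hA.crv E).le
      rw [← interHom_apply hA.toRR, map_sub, map_add, map_zsmul, interHom_apply, interHom_apply,
        interHom_apply, smul_eq_mul]
      omega))] at a5
    rw [a2] at a3 a4
    omega

/-- The class of the contraction. -/
theorem exists_L (hA : S.All) {E : Crv S.W} (hE : IsExc S E) : ∃ (m k : ℕ) (L : Div S.W),
    L = ((m + 1 : ℕ) : ℤ) • S.H + ((k + 1 : ℕ) : ℤ) • Finsupp.single E 1 ∧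
    inter L (Finsupp.single E 1) = 0 ∧ h0 L = h0 (L - Finsupp.single E 1) + 1 ∧
    h0 (L - Finsupp.single E 1) = h0 (L - Finsupp.single E 1 - Finsupp.single E 1) + 2 := by
  obtain ⟨m₁, h1⟩ := hA.large 0
  obtain ⟨m, a1, a2, a3⟩ : ∃ m : ℕ, m₁ ≤ (m + 1 : ℕ) ∧ inter S.H S.kap < (m + 1 : ℕ) ∧ 1 ≤ m :=
    ⟨(max m₁ (inter S.H S.kap)).toNat + 1, by omega, by omega, by omega⟩
  have h3 := h1 _ a1
  rw [zero_add] at h3
  have h4 : inter S.H S.kap < inter S.H (((m + 1 : ℕ) : ℤ) • S.H) := by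
    rw [← interHom_apply hA.toRR _ (_ • _), map_zsmul, interHom_apply, smul_eq_mul]
    have := le_mul_of_one_le_right (Int.natCast_nonneg (m + 1)) hA.sq
    omega
  have h5 : 2 ≤ inter (((m + 1 : ℕ) : ℤ) • S.H) (Finsupp.single E 1) := by
    rw [← interHom_apply hA.toRR, map_zsmul, AddMonoidHom.zsmul_apply, interHom_apply, smul_eq_mul]
    have := le_mul_of_one_le_right (Int.natCast_nonneg (m + 1)) (hA.crv E)
    omega
  generalize hD : ((m + 1 : ℕ) : ℤ) • S.H = D at h3 h4 h5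
  obtain ⟨k, hk⟩ : ∃ k : ℕ, inter D (Finsupp.single E 1) = k + 2 :=
    ⟨(inter D (Finsupp.single E 1) - 2).toNat, by omega⟩
  have b0 := h0_eq_chi hA hE h3 h4 k (by omega)
  have b1 := h0_eq_chi hA hE h3 h4 (k + 1) (by omega)
  have b2 := h0_eq_chi hA hE h3 h4 (k + 1 + 1) (by omega)
  have e1 : ∀ j : ℕ, D + ((j + 1 : ℕ) : ℤ) • Finsupp.single E 1 - Finsupp.single E 1 =
      D + (j : ℤ) • Finsupp.single E 1 := fun j => by
    push_cast
    rw [add_smul, one_smul]
    abel
  have e2 : ∀ j : ℕ, inter (D + (j : ℤ) • Finsupp.single E 1) (Finsupp.single E 1) =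
      k + 2 - j := fun j => by
    rw [← interHom_apply hA.toRR, map_add, map_zsmul, AddMonoidHom.add_apply,
      AddMonoidHom.zsmul_apply, interHom_apply, interHom_apply, hE.1, smul_eq_mul, hk]
    ring
  have c1 := chi_step hA hE (D + ((k + 1 : ℕ) : ℤ) • Finsupp.single E 1)
  have c2 := chi_step hA hE (D + ((k + 1 + 1 : ℕ) : ℤ) • Finsupp.single E 1)
  rw [e1, e2] at c1 c2
  refine ⟨m, k + 1, _, by rw [hD], ?_, ?_, ?_⟩
  · rw [e2]
    omega
  · rw [e1]
    omega
  · rw [e1, e1]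
    omega

/-- An effective divisor that has intersection number zero with a curve does not meet it. -/
theorem disj (hA : S.All) {E : Crv S.W} {Z : Div S.W} (hZ : 0 ≤ Z) (h : Z E = 0)
    (h0 : inter Z (Finsupp.single E 1) ≤ 0) {x : Pt S.W} (hx : x.On E) {C : Crv S.W}
    (hC : x.On C) : Z C = 0 := by
  by_contra hc
  have := inter_pos hA.toLoc1 hA.multPos hA.inte hZ (one_nonneg E)
    (fun X => (Rul.single_or h X).symm) ⟨C, hC, hc⟩ ⟨E, hx, by simp⟩
  omega

/-- The data of the contraction. -/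
structure CD (S : Surf K) (E : Crv S.W) where
  L : Div S.W
  m : ℕ
  pw : ∀ a ∈ S.W, ∀ b ∈ S.W, b * a ^ m ∈ H0 (L - Finsupp.single E 1)
  off : ∀ (C : Crv S.W), C ≠ E → ∀ a ∈ S.W, C.In a → C.ord (a ^ (m + 1)) + L C = 0
  w : K
  hw : w ∈ H0 L
  gw : ∀ x : Pt S.W, x.On E → GenAt x L w
  s : K
  t : K
  hs : s ∈ H0 (L - Finsupp.single E 1)
  ht : t ∈ H0 (L - Finsupp.single E 1)
  y : Pt S.W
  C : Crv S.W
  ne : C ≠ E
  yE : y.On E
  yC : y.On C
  gs : ∀ x : Pt S.W, x.On E → GenAt x (L - Finsupp.single E 1 - Finsupp.single C 1) s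
  gt : GenAt y (L - Finsupp.single E 1) t
  uniq : ∀ x : Pt S.W, x.On E → x.On C → x = y
  one : mult y (Finsupp.single C 1) (Finsupp.single E 1) = 1

theorem exists_CD (hA : S.All) {E : Crv S.W} (hE : IsExc S E) : Nonempty (CD S E) := by
  classical
  obtain ⟨m, k, L, hL, h1, h2, h3⟩ := exists_L hA hE
  have := Hd.fin hA (L - Finsupp.single E 1)
  obtain ⟨w, hw, hw'⟩ : ∃ w ∈ H0 L, w ∉ H0 (L - Finsupp.single E 1) := by
    by_contra hc
    push Not at hc
    have := Submodule.finrank_mono (show H0 L ≤ H0 (L - Finsupp.single E 1) from hc)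
    unfold h0 at h2
    omega
  obtain ⟨w0, w1⟩ := coef_zero hA hw hw'
  have h4 : inter (L - Finsupp.single E 1) (Finsupp.single E 1) = 1 := by
    rw [← interHom_apply hA.toRR, map_sub, AddMonoidHom.sub_apply, interHom_apply, interHom_apply,
      h1, hE.1]
    rfl
  obtain ⟨y, y', hne, hy, hy'⟩ := exists_on hA E
  obtain ⟨s, s1, s0, s2, s3⟩ := Rul.exists_one hA (by omega) (by omega) hy
    (E := L - Finsupp.single E 1)
  obtain ⟨t, t1, t0, t2, t3⟩ := Rul.exists_one hA (by omega) (by omega) hy'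
    (E := L - Finsupp.single E 1)
  have gen : ∀ {D : Div S.W} {u : K} {x : Pt S.W}, u ≠ 0 →
      (∀ C, x.On C → (D + div S.W u) C = 0) → GenAt x D u := fun u0 h => ⟨u0, fun C hC => by
    have := h C hC
    rw [Finsupp.add_apply, div_apply hA.toLoc2] at this
    omega⟩
  have z1 := eff_of_mem hA.toLoc2 s1 s0
  have z2 : inter (L - Finsupp.single E 1 + div S.W s) (Finsupp.single E 1) = 1 := by
    rw [inter_lin hA.toRR _ _ s0, h4]
  have z3 : mult y (Finsupp.single E 1) (L - Finsupp.single E 1 + div S.W s) = 1 := by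
    have a1 := inter_eq hA.inte (one_nonneg E) z1 (Rul.single_or s2)
    rw [inter_comm, z2, finsum_eq_single _ y fun x hx => by
      rw [not_not.1 (mt (s3 x) hx)]
      rfl] at a1
    exact_mod_cast a1.symm
  obtain ⟨C, hC, hC'⟩ := ((hA.multPos y _ _ (one_nonneg E) z1 (Rul.single_or s2)).2.1
    (by omega)).2
  have hCE : C ≠ E := fun e => hC' (e ▸ s2)
  have c1 : (Finsupp.single C (1 : ℤ) : Div S.W) E = 0 := Finsupp.single_eq_of_ne hCE.symm
  have z4 : 0 ≤ L - Finsupp.single E 1 + div S.W s - Finsupp.single C 1 := fun X => by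
    have a1 : 0 ≤ (L - Finsupp.single E 1 + div S.W s : Div S.W) X := z1 X
    rw [Finsupp.sub_apply]
    by_cases e : X = C
    · subst e
      rw [Finsupp.single_eq_same]
      change (0 : ℤ) ≤ _
      omega
    · rw [Finsupp.single_eq_of_ne e]
      simpa using a1
  have z5 := inter_pos hA.toLoc1 hA.multPos hA.inte (one_nonneg C) (one_nonneg E)
    (fun X => (Rul.single_or c1 X).symm) ⟨C, hC, by simp⟩ ⟨E, hy, by simp⟩
  have z6 : ∀ x : Pt S.W, x.On E → ∀ X, x.On X →
      (L - Finsupp.single E 1 + div S.W s - Finsupp.single C 1 : Div S.W) X = 0 :=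
    fun x hx X hX => disj hA z4 (by rw [Finsupp.sub_apply, s2, c1]; rfl) (by
      rw [← interHom_apply hA.toRR, map_sub, AddMonoidHom.sub_apply, interHom_apply,
        interHom_apply, z2]
      omega) hx hX
  have z7 : ∀ x : Pt S.W, x.On E → x.On C → x = y := fun x hx hx' =>
    s3 x ((hA.multPos x _ _ (one_nonneg E) z1 (Rul.single_or s2)).2.2
      ⟨⟨E, hx, by simp⟩, C, hx', hC'⟩)
  have hle : ((m + 1 : ℕ) : ℤ) • S.H ≤ L - Finsupp.single E 1 := by
    rw [hL, add_sub_assoc, le_add_iff_nonneg_right]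
    push_cast
    rw [add_smul, one_smul, add_sub_cancel_right]
    exact smul_nonneg (Int.natCast_nonneg k) (one_nonneg E)
  refine ⟨⟨L, m, fun a ha b hb => ?_, fun X hX a ha h => ?_, w, hw, fun x hx => gen w0 fun X hX =>
    disj hA (eff_of_mem hA.toLoc2 hw w0) w1 (by rw [inter_lin hA.toRR _ _ w0, h1]) hx hX,
    s, t, s1, t1, y, C, hCE, hy, hC, fun x hx => gen s0 fun X hX => ?_, gen t0 fun X hX => ?_,
    z7, ?_⟩⟩
  · refine secOn_mono (fun _ _ => ⟨trivial, hle _⟩) (show b * a ^ m ∈ H0 _ from ?_)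
    clear hL hle
    induction m with
    | zero => simpa using mem_H0_H hA.toLoc2 hb
    | succ m ih =>
      have := mul_mem_secOn ih (mem_H0_H hA.toLoc2 ha)
      rw [pow_succ, ← mul_assoc, Nat.cast_succ (m + 1), add_smul, one_smul]
      exact this
  · rw [hL, Finsupp.add_apply, Finsupp.smul_apply, Finsupp.smul_apply,
      Finsupp.single_eq_of_ne hX, hA.hyp_in X a ha h]
    unfold Crv.ord
    rw [Pl.ord_pow]
    simp
  · rw [← z6 x hx X hX]
    congr 1
    abel
  · by_contra hc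
    exact hne (t3 y ((hA.multPos y _ _ (one_nonneg E) (eff_of_mem hA.toLoc2 t1 t0)
      (Rul.single_or t2)).2.2 ⟨⟨E, hy, by simp⟩, X, hX, hc⟩))
  · rw [mult_comm, ← z3]
    unfold mult
    have : idl y (Finsupp.single C 1) = idl y (L - Finsupp.single E 1 + div S.W s) := by
      ext f
      rw [mem_idl, mem_idl]
      refine or_congr_right (forall₂_congr fun X hX => ?_)
      have := z6 y hy X hX
      rw [Finsupp.sub_apply, sub_eq_zero] at this
      rw [Finsupp.neg_apply, Finsupp.neg_apply, this]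
    rw [this]

end Ct

end Vale.Agent.P297Z.Sf
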